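import Vale.Agent.P006.TI.Mu
import Vale.Agent.P006.H570.Per
import Vale.Agent.P006.H845.Count
import Vale.Agent.P006.H357.Alg

/-!
P006, block TI: counting primary elements, squarefree primary elements, and squarefree primary
elements prime to `b`, with an error term `O(τ(b) x^θ)`, `θ > 1/2`.
-/

namespace Vale.Agent.P006.TI

open Vale.Agent.P006 Finset UniqueFactorizationMonoid
open Vale.Agent.P006.H570 (PO)

/-- the density of primary elements -/
noncomputable def C0 : ℝ := 2 * Real.pi / (9 * √3)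

theorem C0_pos : 0 < C0 := by unfold C0; positivity

theorem C0_le : C0 ≤ 1 := by
  have h4 : (1.73 : ℝ) < √3 := by
    rw [Real.lt_sqrt (by norm_num)]; norm_num
  unfold C0
  rw [div_le_iff₀ (by positivity)]; nlinarith [Real.pi_lt_d2]

/-- `|#{c primary, N c ≤ x} - C₀ x| ≤ 16 √x` for all `x ≥ 0` -/
theorem abs_card_PB_sub_le {x : ℝ} (hx : 0 ≤ x) : |((PB x).card : ℝ) - C0 * x| ≤ 16 * √x := by
  classical
  by_cases h1 : x < 1
  · rw [PB_eq_empty h1]
    have h2 : x ≤ √x := by
      rw [Real.le_sqrt hx hx]; nlinarith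
    have h3 := C0_le
    have h4 := C0_pos
    simp only [card_empty, Nat.cast_zero, zero_sub, abs_neg]
    rw [abs_of_nonneg (by positivity)]
    nlinarith [Real.sqrt_nonneg x]
  · push Not at h1
    have h := H570.card_class_sub_le 1 3 (by decide) hx
    have h3 : ((N (3 : O) : ℕ) : ℝ) = 9 := by
      have : N (3 : O) = 9 := by decide
      rw [this]; norm_num
    have h4 : @Finset.filter O (fun b => (3 : O) ∣ b - 1) (fun _ => Classical.propDecidable _)
        (H570.nb x) = PB x := by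
      ext b
      have h5 := @Finset.mem_filter O (fun b => (3 : O) ∣ b - 1)
        (fun _ => Classical.propDecidable _) (H570.nb x) b
      rw [h5, H570.mem_nb hx, mem_PB]
      exact and_comm
    rw [h3, h4] at h
    have h5 : 2 * Real.pi * (x / 9) / √3 = C0 * x := by
      unfold C0; ring
    rw [h5] at h
    refine h.trans ?_
    have h6 : √(x / 9) ≤ √x := Real.sqrt_le_sqrt (by linarith)
    have h7 : 1 ≤ √x := Real.one_le_sqrt.2 h1
    linarith

theorem prim_eq (k : O) : HB.Prim k = Primary k := rfl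

open Classical in
/-- squarefree primary elements of norm at most `x` -/
noncomputable def SQ (x : ℝ) : Finset O := (PB x).filter Squarefree

theorem mem_SQ {x : ℝ} {c : O} : c ∈ SQ x ↔ Primary c ∧ Squarefree c ∧ (N c : ℝ) ≤ x := by
  simp only [SQ, mem_filter, mem_PB]; tauto

/-- `#{c ∈ PB x : m ∣ c} = #PB (x / N m)` for primary `m` -/
theorem card_PB_dvd {x : ℝ} {m : O} (hm : Primary m) :
    ((PB x).filter (fun c => m ∣ c)).card = (PB (x / N m)).card := by
  symm
  have hN : (0 : ℝ) < N m := by exact_mod_cast N_pos hm.ne_zero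
  refine card_bij (fun c _ => m * c) ?_ ?_ ?_
  · intro c hc
    rw [mem_PB] at hc
    rw [mem_filter, mem_PB]
    refine ⟨⟨hm.mul hc.1, ?_⟩, dvd_mul_right m c⟩
    rw [N_mul]; push_cast
    rw [le_div_iff₀ hN] at hc; linarith [hc.2]
  · intro a _ b _ h
    exact mul_left_cancel₀ hm.ne_zero h
  · intro c hc
    rw [mem_filter, mem_PB] at hc
    obtain ⟨⟨h1, h2⟩, c', rfl⟩ := hc
    refine ⟨c', ?_, rfl⟩
    rw [mem_PB, le_div_iff₀ hN]
    refine ⟨hm.of_mul h1, ?_⟩
    rw [N_mul] at h2; push_cast at h2; linarith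

/-- squarefree count as a Möbius sum -/
theorem card_SQ_eq {x : ℝ} {y : ℝ} (hy : x ≤ y) :
    ((SQ x).card : ℝ) = ∑ d ∈ PB y, (mu d : ℝ) * ((PB (x / (N d : ℝ) ^ 2)).card : ℝ) := by
  classical
  have h1 : ((SQ x).card : ℝ) = ∑ c ∈ PB x, ∑ d ∈ PB y, if d ^ 2 ∣ c then (mu d : ℝ) else 0 := by
    rw [SQ, card_filter]
    push_cast
    refine sum_congr rfl fun c hc => ?_
    rw [mem_PB] at hc
    have h2 := sum_mu_sq_dvd hc.1
    have h3 : ∑ d ∈ PB y, (if d ^ 2 ∣ c then (mu d : ℝ) else 0) =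
        ((∑ d ∈ (PO.divs c).filter (fun d => d ^ 2 ∣ c), mu d : ℤ) : ℝ) := by
      push_cast
      rw [← sum_filter]
      refine sum_congr ?_ fun _ _ => rfl
      ext d
      rw [mem_filter, mem_filter, mem_divs hc.1, mem_PB]
      constructor
      · rintro ⟨⟨h4, h5⟩, h6⟩
        exact ⟨⟨h4, (dvd_pow_self d two_ne_zero).trans h6⟩, h6⟩
      · rintro ⟨⟨h4, h5⟩, h6⟩
        refine ⟨⟨h4, ?_⟩, h6⟩
        have h7 : N d ≤ N c := Nat.le_of_dvd (N_pos hc.1.ne_zero) (N_dvd_N h5)
        have h8 : (N d : ℝ) ≤ N c := by exact_mod_cast h7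
        linarith [hc.2]
    rw [h3, h2]
    split_ifs <;> simp
  rw [h1, sum_comm]
  refine sum_congr rfl fun d hd => ?_
  rw [mem_PB] at hd
  rw [← sum_filter, sum_const, nsmul_eq_mul, card_PB_dvd (hd.1.pow 2), N_pow]
  push_cast
  ring

/-- the primary count with a power error, uniformly for all `x > 0` -/
theorem abs_card_PB_sub_le_rpow {x θ : ℝ} (hx : 0 < x) (h1 : 1 / 2 ≤ θ) (h2 : θ ≤ 1) :
    |((PB x).card : ℝ) - C0 * x| ≤ 16 * x ^ θ := by
  by_cases hx1 : x < 1
  · rw [PB_eq_empty hx1]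
    have h3 := C0_le
    have h4 := C0_pos
    simp only [card_empty, Nat.cast_zero, zero_sub, abs_neg]
    rw [abs_of_nonneg (by positivity)]
    have h5 : x ≤ x ^ θ := by
      calc x = x ^ (1 : ℝ) := (Real.rpow_one x).symm
        _ ≤ x ^ θ := Real.rpow_le_rpow_of_exponent_ge hx hx1.le h2
    nlinarith
  · push Not at hx1
    refine (abs_card_PB_sub_le hx.le).trans ?_
    rw [Real.sqrt_eq_rpow]
    gcongr

open Classical in
/-- `∑_{d primary} μ(d) N(d)^{-2}` -/
noncomputable def Z2 : ℝ := ∑' d : O, if Primary d then (mu d : ℝ) * ((N d : ℝ) ^ 2)⁻¹ else 0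

/-- the density of squarefree primary elements -/
noncomputable def kap : ℝ := C0 * Z2

/-- `∑ N(d)^{-s}` over all `d ≠ 0` -/
noncomputable def ZS (s : ℝ) : ℝ := ∑' d : O, (N d : ℝ) ^ (-s)

theorem ZS_nonneg (s : ℝ) : 0 ≤ ZS s := tsum_nonneg fun _ => by positivity

theorem abs_mu_cast_le (d : O) : |(mu d : ℝ)| ≤ 1 := by exact_mod_cast abs_mu_le d

open Classical in
theorem summable_Z2 :
    Summable fun d : O => if Primary d then (mu d : ℝ) * ((N d : ℝ) ^ 2)⁻¹ else 0 := by
  refine Summable.of_norm_bounded (HB.summable_N_rpow (s := 2) (by norm_num)) fun d => ?_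
  split_ifs with h
  · rw [norm_mul, Real.norm_eq_abs, Real.norm_eq_abs]
    have h1 : |((N d : ℝ) ^ 2)⁻¹| = (N d : ℝ) ^ (-2 : ℝ) := by
      rw [abs_of_nonneg (by positivity), Real.rpow_neg (by positivity), Real.rpow_ofNat]
    rw [h1]
    have h3 : 0 ≤ (N d : ℝ) ^ (-2 : ℝ) := by positivity
    nlinarith [abs_mu_cast_le d]
  · rw [norm_zero]; positivity

open Classical in
/-- the squarefree count with a power error -/
theorem abs_card_SQ_sub_le {x θ : ℝ} (hx : 0 < x) (h1 : 1 / 2 < θ) (h2 : θ ≤ 1) :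
    |((SQ x).card : ℝ) - kap * x| ≤ 16 * ZS (2 * θ) * x ^ θ := by
  set A : O → ℝ := fun d => ((PB (x / (N d : ℝ) ^ 2)).card : ℝ) with hA
  set g : O → ℝ := fun d => if Primary d then (mu d : ℝ) * A d else 0 with hg
  set m : O → ℝ := fun d => if Primary d then (mu d : ℝ) * ((N d : ℝ) ^ 2)⁻¹ else 0 with hm
  have hZ : kap * x = ∑' d, C0 * x * m d := by
    rw [tsum_mul_left, kap, Z2]; ring
  have hS : ((SQ x).card : ℝ) = ∑' d, g d := by
    rw [card_SQ_eq (le_refl x), tsum_eq_sum (s := PB x)]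
    · refine sum_congr rfl fun d hd => ?_
      rw [mem_PB] at hd
      simp only [hg, if_pos hd.1, hA]
    · intro d hd
      simp only [hg]
      split_ifs with hp
      · have hN : (1 : ℝ) ≤ N d := by exact_mod_cast N_pos hp.ne_zero
        have h3 : x < N d := by
          by_contra hcon
          push Not at hcon
          exact hd (mem_PB.2 ⟨hp, hcon⟩)
        have h4 : x / (N d : ℝ) ^ 2 < 1 := by
          rw [div_lt_one (by positivity)]; nlinarith
        simp only [hA]
        rw [PB_eq_empty h4]; simp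
      · rfl
  have hsm : Summable fun d => C0 * x * m d := summable_Z2.mul_left _
  have hsg : Summable g := by
    refine summable_of_hasFiniteSupport ((PB x).finite_toSet.subset ?_)
    intro d hd
    by_contra hcon
    apply hd
    simp only [hg]
    split_ifs with hp
    · have hN : (1 : ℝ) ≤ N d := by exact_mod_cast N_pos hp.ne_zero
      have h3 : x < N d := by
        by_contra hcon2
        push Not at hcon2
        exact hcon (mem_coe.2 (mem_PB.2 ⟨hp, hcon2⟩))
      have h4 : x / (N d : ℝ) ^ 2 < 1 := by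
        rw [div_lt_one (by positivity)]; nlinarith
      simp only [hA]
      rw [PB_eq_empty h4]; simp
    · rfl
  rw [hS, hZ, ← hsg.tsum_sub hsm]
  have hb : ∀ d, ‖g d - C0 * x * m d‖ ≤ 16 * x ^ θ * (N d : ℝ) ^ (-(2 * θ)) := by
    intro d
    simp only [hg, hm]
    split_ifs with hp
    · have hN : (0 : ℝ) < N d := by exact_mod_cast N_pos hp.ne_zero
      have h3 : (mu d : ℝ) * A d - C0 * x * ((mu d : ℝ) * ((N d : ℝ) ^ 2)⁻¹) =
          (mu d : ℝ) * (A d - C0 * (x / (N d : ℝ) ^ 2)) := by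
        field_simp
      rw [h3, norm_mul, Real.norm_eq_abs, Real.norm_eq_abs]
      have h4 := abs_card_PB_sub_le_rpow (x := x / (N d : ℝ) ^ 2) (θ := θ) (by positivity)
        h1.le h2
      have h5 : (x / (N d : ℝ) ^ 2) ^ θ = x ^ θ * (N d : ℝ) ^ (-(2 * θ)) := by
        rw [Real.div_rpow hx.le (by positivity), ← Real.rpow_natCast, ← Real.rpow_mul hN.le,
          Real.rpow_neg hN.le]
        push_cast
        rfl
      rw [h5] at h4
      calc |(mu d : ℝ)| * |A d - C0 * (x / (N d : ℝ) ^ 2)|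
          ≤ 1 * (16 * (x ^ θ * (N d : ℝ) ^ (-(2 * θ)))) := by
            gcongr
            exact abs_mu_cast_le d
        _ = _ := by ring
    · rw [mul_zero, sub_zero, norm_zero]; positivity
  have hsb : Summable fun d : O => 16 * x ^ θ * (N d : ℝ) ^ (-(2 * θ)) :=
    (HB.summable_N_rpow (s := 2 * θ) (by linarith)).mul_left _
  have h6 := tsum_of_norm_bounded hsb.hasSum hb
  rw [tsum_mul_left, Real.norm_eq_abs] at h6
  rw [ZS]
  linarith

/-! ### coprimality -/

open Classical in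
/-- squarefree primary elements of norm at most `x` prime to `b` -/
noncomputable def SC (b : O) (x : ℝ) : Finset O := (SQ x).filter (fun c => IsCoprime c b)

theorem mem_SC {b : O} {x : ℝ} {c : O} :
    c ∈ SC b x ↔ Primary c ∧ Squarefree c ∧ IsCoprime c b ∧ (N c : ℝ) ≤ x := by
  simp only [SC, mem_filter, mem_SQ]; tauto

theorem SC_one (x : ℝ) : SC 1 x = SQ x := by
  ext c; rw [mem_SC, mem_SQ]; simp [isCoprime_one_right]

theorem SC_eq_empty {b : O} {x : ℝ} (hx : x < 1) : SC b x = ∅ := by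
  rw [eq_empty_iff_forall_notMem]
  intro c hc
  rw [mem_SC] at hc
  have hN : (1 : ℝ) ≤ N c := by exact_mod_cast N_pos hc.1.ne_zero
  linarith [hc.2.2.2]

/-- `#SC b x = #SC (p b) x + #SC (p b) (x / N p)` -/
theorem card_SC_prime {p b : O} (hp : Prime p) (hpp : Primary p) (hpb : IsCoprime p b) (x : ℝ) :
    (SC b x).card = (SC (p * b) x).card + (SC (p * b) (x / N p)).card := by
  classical
  have hN : (0 : ℝ) < N p := by exact_mod_cast N_pos hp.ne_zero
  rw [← card_filter_add_card_filter_not (s := SC b x) (fun c => IsCoprime c p)]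
  congr 1
  · congr 1
    ext c
    rw [mem_filter, mem_SC, mem_SC, IsCoprime.mul_right_iff]; tauto
  · symm
    refine card_bij (fun c _ => p * c) ?_ ?_ ?_
    · intro c hc
      rw [mem_SC, IsCoprime.mul_right_iff] at hc
      obtain ⟨h1, h2, ⟨h3, h4⟩, h5⟩ := hc
      rw [mem_filter, mem_SC]
      refine ⟨⟨hpp.mul h1, ?_, ?_, ?_⟩, ?_⟩
      · rw [squarefree_prime_mul_iff hp]
        · exact h2
        · exact (hp.coprime_iff_not_dvd).1 h3.symm
      · exact hpb.mul_left h4
      · rw [N_mul]; push_cast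
        rw [le_div_iff₀ hN] at h5; linarith
      · intro h
        exact hp.not_isUnit (h.isUnit_of_dvd' (dvd_mul_right p c) dvd_rfl)
    · intro a _ b _ h
      exact mul_left_cancel₀ hp.ne_zero h
    · intro c hc
      rw [mem_filter, mem_SC] at hc
      obtain ⟨⟨h1, h2, h3, h4⟩, h5⟩ := hc
      have h6 : p ∣ c := by
        by_contra hcon
        exact h5 ((hp.coprime_iff_not_dvd).2 hcon).symm
      obtain ⟨c', rfl⟩ := h6
      refine ⟨c', ?_, rfl⟩
      have h7 : ¬ p ∣ c' := by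
        rintro ⟨c'', rfl⟩
        exact hp.not_isUnit (h2 p ⟨c'', by ring⟩)
      rw [mem_SC, IsCoprime.mul_right_iff, le_div_iff₀ hN]
      refine ⟨hpp.of_mul h1, h2.of_mul_right, ⟨((hp.coprime_iff_not_dvd).2 h7).symm,
        h3.of_mul_left_right⟩, ?_⟩
      rw [N_mul] at h4; push_cast at h4; linarith

open Classical in
/-- `∏_{p ∣ r} (N p + 1)⁻¹` -/
noncomputable def vr (r : O) : ℝ := ∏ p ∈ (dvs r).filter Prime, ((N p : ℝ) + 1)⁻¹

theorem vr_one : vr 1 = 1 := by
  classical
  unfold vr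
  rw [filter_false_of_mem, prod_empty]
  intro d hd hp
  rw [mem_dvs one_ne_zero] at hd
  exact hp.not_isUnit (isUnit_of_dvd_one hd.2)

theorem vr_mul {p b : O} (hp : Prime p) (hpp : Primary p) (hb : Primary b) (hpb : ¬ p ∣ b) :
    vr (p * b) = ((N p : ℝ) + 1)⁻¹ * vr b := by
  classical
  unfold vr
  have h0 : p * b ≠ 0 := (hpp.mul hb).ne_zero
  have h1 : (dvs (p * b)).filter Prime = insert p ((dvs b).filter Prime) := by
    ext q
    rw [mem_filter, mem_dvs h0, mem_insert, mem_filter, mem_dvs hb.ne_zero]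
    constructor
    · rintro ⟨⟨h2, h3⟩, h4⟩
      rcases h4.dvd_or_dvd h3 with h5 | h5
      · left
        exact h2.eq_of_associated hpp ((h4.dvd_prime_iff_associated hp).1 h5)
      · right; exact ⟨⟨h2, h5⟩, h4⟩
    · rintro (rfl | ⟨⟨h2, h3⟩, h4⟩)
      · exact ⟨⟨hpp, dvd_mul_right _ _⟩, hp⟩
      · exact ⟨⟨h2, h3.mul_left p⟩, h4⟩
  rw [h1, prod_insert]
  rw [mem_filter, mem_dvs hb.ne_zero]
  exact fun h => hpb h.1.2

theorem vr_pos (r : O) : 0 < vr r := by
  unfold vr; exact prod_pos fun p _ => by positivity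

theorem N_mul_vr_le_one {r : O} (hr : Primary r) (hs : Squarefree r) : (N r : ℝ) * vr r ≤ 1 := by
  refine HB.sf_induction (P := fun r => (N r : ℝ) * vr r ≤ 1) ?_ ?_ r hr hs
  · rw [vr_one]; simp
  · intro p k hpp hp hk _ hpk ih
    rw [vr_mul hp hpp hk ((hp.coprime_iff_not_dvd).1 hpk), N_mul]
    push_cast
    have h1 : (0 : ℝ) < (N p : ℝ) + 1 := by positivity
    have h2 : (N p : ℝ) * ((N p : ℝ) + 1)⁻¹ ≤ 1 := by
      rw [← div_eq_mul_inv, div_le_one h1]; linarith
    calc (N p : ℝ) * (N k : ℝ) * (((N p : ℝ) + 1)⁻¹ * vr k)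
        = ((N p : ℝ) * ((N p : ℝ) + 1)⁻¹) * ((N k : ℝ) * vr k) := by ring
      _ ≤ 1 * 1 := by
          apply mul_le_mul h2 ih _ zero_le_one
          have := vr_pos k
          positivity
      _ = 1 := one_mul 1

/-- primary primes have norm at least 4 -/
theorem four_le_N {p : O} (hp : Prime p) (hpp : Primary p) : 4 ≤ N p := by
  have h1 := H570.N_mod_three p
  have h2 : p ∈ H570.primary := hpp
  rw [H570.mem_primary_iff] at h2
  have h3 := Prime.two_le_N hp
  obtain ⟨⟨a, ha⟩, ⟨b, hb⟩⟩ := h2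
  have h4 : (3 : ℤ) ∣ (N p : ℤ) - 1 := by
    have h5 : (3 : ℤ) ∣ (p.re + p.im) ^ 2 - 1 := by
      have : p.re = 3 * a + 1 := by linarith
      rw [this, hb]
      exact ⟨3 * (a + b) ^ 2 + 2 * (a + b), by ring⟩
    have := dvd_add h1 h5
    rwa [sub_add_sub_cancel] at this
  omega

/-- the error term of the count of squarefree primary elements prime to `b` -/
noncomputable def Eb (b : O) (x : ℝ) : ℝ := ((SC b x).card : ℝ) - kap * ((N b : ℝ) * vr b) * x

/-- the constant of the error terms -/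
noncomputable def M1 (θ : ℝ) : ℝ := 16 * ZS (2 * θ) + |kap|

theorem M1_nonneg (θ : ℝ) : 0 ≤ M1 θ := by
  have := ZS_nonneg (2 * θ)
  unfold M1; positivity

theorem Eb_rec {p b : O} (hp : Prime p) (hpp : Primary p) (hb : Primary b) (hpb : IsCoprime p b)
    (x : ℝ) : Eb (p * b) x = Eb b x - Eb (p * b) (x / N p) := by
  have hN : (0 : ℝ) < N p := by exact_mod_cast N_pos hp.ne_zero
  unfold Eb
  rw [card_SC_prime hp hpp hpb x, vr_mul hp hpp hb ((hp.coprime_iff_not_dvd).1 hpb), N_mul]
  push_cast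
  field_simp
  ring

theorem abs_Eb_small {b : O} (hb : Primary b) (hs : Squarefree b) {x θ : ℝ} (hx : 0 < x)
    (hx1 : x < 1) (h2 : θ ≤ 1) : |Eb b x| ≤ M1 θ * x ^ θ := by
  unfold Eb
  rw [SC_eq_empty hx1]
  have h3 := N_mul_vr_le_one hb hs
  have h4 : 0 ≤ (N b : ℝ) * vr b := by have := vr_pos b; positivity
  have h5 : x ≤ x ^ θ := by
    calc x = x ^ (1 : ℝ) := (Real.rpow_one x).symm
      _ ≤ x ^ θ := Real.rpow_le_rpow_of_exponent_ge hx hx1.le h2
  simp only [card_empty, Nat.cast_zero, zero_sub, abs_neg]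
  rw [abs_mul, abs_mul, abs_of_nonneg h4, abs_of_pos hx]
  have h6 : |kap| ≤ M1 θ := by
    have := ZS_nonneg (2 * θ)
    unfold M1; linarith
  calc |kap| * ((N b : ℝ) * vr b) * x ≤ |kap| * 1 * x ^ θ := by gcongr
    _ ≤ M1 θ * x ^ θ := by rw [mul_one]; gcongr

/-- **Squarefree primary elements prime to `b`**: power error term, uniform in `x > 0`. -/
theorem abs_Eb_le {θ : ℝ} (h1 : 1 / 2 < θ) (h2 : θ ≤ 1) {b : O} (hb : Primary b)
    (hs : Squarefree b) : ∀ x : ℝ, 0 < x → |Eb b x| ≤ M1 θ * (HB.D b).card * x ^ θ := by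
  refine HB.sf_induction (P := fun b => ∀ x : ℝ, 0 < x →
    |Eb b x| ≤ M1 θ * (HB.D b).card * x ^ θ) ?_ ?_ b hb hs
  · intro x hx
    unfold Eb
    rw [SC_one, vr_one, HB.D_one]
    have h3 := abs_card_SQ_sub_le hx h1 h2
    simp only [N_one, Nat.cast_one, mul_one, card_singleton]
    refine h3.trans ?_
    gcongr
    unfold M1
    have := abs_nonneg kap
    linarith
  · intro p b hpp hp hb hsb hpb ih
    have hN : (0 : ℝ) < N p := by exact_mod_cast N_pos hp.ne_zero
    have hN4 : (4 : ℝ) ≤ N p := by exact_mod_cast four_le_N hp hpp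
    have hcard := HB.card_D_mul hpp hp hb hpb
    have hM := M1_nonneg θ
    have hsq : Squarefree (p * b) :=
      (squarefree_prime_mul_iff hp ((hp.coprime_iff_not_dvd).1 hpb)).2 hsb
    have hprim : Primary (p * b) := Primary.mul hpp hb
    rw [hcard]
    push_cast
    have hfac : ((N p : ℝ)) ^ (-θ) ≤ 1 / 2 := by
      calc ((N p : ℝ)) ^ (-θ) ≤ ((N p : ℝ)) ^ (-(1 / 2) : ℝ) :=
            Real.rpow_le_rpow_of_exponent_le (by linarith) (by linarith)
        _ ≤ (4 : ℝ) ^ (-(1 / 2) : ℝ) :=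
            Real.rpow_le_rpow_of_nonpos (by norm_num) hN4 (by norm_num)
        _ = 1 / 2 := by
            rw [Real.rpow_neg (by norm_num), ← Real.sqrt_eq_rpow]
            rw [show (4 : ℝ) = 2 ^ 2 by norm_num, Real.sqrt_sq (by norm_num)]
            norm_num
    have key : ∀ n : ℕ, ∀ x : ℝ, 0 < x → x < (4 : ℝ) ^ n →
        |Eb (p * b) x| ≤ M1 θ * (2 * (HB.D b).card) * x ^ θ := by
      have hD1 : (1 : ℝ) ≤ (HB.D b).card := by
        have : 0 < (HB.D b).card := by
          rw [card_pos]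
          exact ⟨1, (HB.mem_D hb.ne_zero).2 ⟨primary_one, one_dvd b⟩⟩
        exact_mod_cast this
      intro n
      induction n with
      | zero =>
        intro x hx hx1
        rw [pow_zero] at hx1
        refine (abs_Eb_small hprim hsq hx hx1 h2).trans ?_
        have h3 : 0 ≤ x ^ θ := by positivity
        have h4 : M1 θ ≤ M1 θ * (2 * (HB.D b).card) := by nlinarith
        gcongr
      | succ n ihn =>
        intro x hx hx1
        have hx' : 0 < x / N p := by positivity
        have h3 : x / N p < (4 : ℝ) ^ n := by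
          rw [div_lt_iff₀ hN]
          calc x < 4 ^ (n + 1) := hx1
            _ = 4 ^ n * 4 := pow_succ _ _
            _ ≤ 4 ^ n * N p := by gcongr
        have h4 := ihn _ hx' h3
        have h5 := ih x hx
        rw [Eb_rec hp hpp hb hpb x]
        have h6 : (x / N p) ^ θ = x ^ θ * (N p : ℝ) ^ (-θ) := by
          rw [Real.div_rpow hx.le hN.le, Real.rpow_neg hN.le]; rfl
        rw [h6] at h4
        have h7 : 0 ≤ x ^ θ := by positivity
        have h8 : 0 ≤ M1 θ * (HB.D b).card * x ^ θ := by positivity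
        calc |Eb b x - Eb (p * b) (x / N p)| ≤ |Eb b x| + |Eb (p * b) (x / N p)| := abs_sub _ _
          _ ≤ M1 θ * (HB.D b).card * x ^ θ +
              M1 θ * (2 * (HB.D b).card) * (x ^ θ * (N p : ℝ) ^ (-θ)) := by gcongr
          _ = M1 θ * (HB.D b).card * x ^ θ * (1 + 2 * (N p : ℝ) ^ (-θ)) := by ring
          _ ≤ M1 θ * (HB.D b).card * x ^ θ * 2 := by
              apply mul_le_mul_of_nonneg_left _ h8
              linarith
          _ = _ := by ring
    intro x hx
    obtain ⟨n, hn⟩ := pow_unbounded_of_one_lt x (by norm_num : (1 : ℝ) < 4)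
    exact key n x hx hn

end Vale.Agent.P006.TI
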