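import Vale.Agent.P006.TI.Count

/-!
P006, block TI: `(∑_{d primary} μ(d) N(d)^{-2}) (∑_{m primary} N(m)^{-2}) = 1`, hence `kap > 0`.
-/

namespace Vale.Agent.P006.TI

open Vale.Agent.P006 Function
open Vale.Agent.P006.H570 (PO)

/-- `∑_{m primary} N(m)^{-2}` -/
noncomputable def ZP : ℝ := ∑' m : {m : O // Primary m}, ((N m.1 : ℝ) ^ 2)⁻¹

theorem summable_ZP : Summable fun m : {m : O // Primary m} => ((N m.1 : ℝ) ^ 2)⁻¹ := by
  have h := (HB.summable_N_rpow (s := 2) (by norm_num)).comp_injective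
    (Subtype.val_injective (p := fun m : O => Primary m))
  refine h.congr fun m => ?_
  show (N m.1 : ℝ) ^ (-(2 : ℝ)) = _
  rw [Real.rpow_neg (by positivity), Real.rpow_ofNat]

theorem summable_Z2' :
    Summable fun m : {m : O // Primary m} => (mu m.1 : ℝ) * ((N m.1 : ℝ) ^ 2)⁻¹ := by
  refine Summable.of_norm_bounded summable_ZP fun m => ?_
  rw [norm_mul, Real.norm_eq_abs, Real.norm_eq_abs, abs_of_nonneg (a := ((N m.1 : ℝ) ^ 2)⁻¹)
    (by positivity)]
  have h1 : 0 ≤ ((N m.1 : ℝ) ^ 2)⁻¹ := by positivity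
  nlinarith [abs_mu_cast_le m.1]

theorem Z2_eq : Z2 = ∑' m : {m : O // Primary m}, (mu m.1 : ℝ) * ((N m.1 : ℝ) ^ 2)⁻¹ := by
  classical
  rw [Z2]
  have h := tsum_subtype {m : O | Primary m} (fun m : O => (mu m : ℝ) * ((N m : ℝ) ^ 2)⁻¹)
  refine Eq.trans ?_ h.symm
  refine tsum_congr fun m => ?_
  rw [Set.indicator_apply]
  rfl

theorem ZP_pos : 0 < ZP := by
  have h := summable_ZP.le_tsum ⟨1, primary_one⟩ (fun _ _ => by positivity)
  rw [← ZP] at h
  simp only [N_one, Nat.cast_one, one_pow, inv_one] at h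
  linarith

open Classical in
theorem Z2_mul_ZP : Z2 * ZP = 1 := by
  rw [Z2_eq, ZP, tsum_mul_tsum_of_summable_norm summable_Z2'.norm summable_ZP.norm]
  set G : O × O → ℝ := fun p => if Primary p.1 ∧ Primary p.2 ∧ p.2 ∣ p.1 then
    (mu p.2 : ℝ) * ((N p.1 : ℝ) ^ 2)⁻¹ else 0 with hG
  set i : {m : O // Primary m} × {m : O // Primary m} → O × O :=
    fun p => (p.1.1 * p.2.1, p.1.1) with hi
  have hinj : Injective i := by
    rintro ⟨⟨d, hd⟩, ⟨m, hm⟩⟩ ⟨⟨d', hd'⟩, ⟨m', hm'⟩⟩ h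
    simp only [hi, Prod.mk.injEq] at h
    obtain ⟨h1, rfl⟩ := h
    have := mul_left_cancel₀ hd.ne_zero h1
    subst this; rfl
  have hGi : ∀ p, G (i p) = (mu p.1.1 : ℝ) * ((N p.1.1 : ℝ) ^ 2)⁻¹ * ((N p.2.1 : ℝ) ^ 2)⁻¹ := by
    rintro ⟨⟨d, hd⟩, ⟨m, hm⟩⟩
    simp only [hG, hi]
    rw [if_pos ⟨hd.mul hm, hd, dvd_mul_right d m⟩, N_mul]
    push_cast
    rw [mul_pow, mul_inv]; ring
  have hsupp : support G ⊆ Set.range i := by
    rintro ⟨c, d⟩ h
    rw [mem_support] at h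
    have h2 : Primary c ∧ Primary d ∧ d ∣ c := by
      by_contra hcon
      exact h (if_neg hcon)
    obtain ⟨hc, hd, m, rfl⟩ := h2
    exact ⟨(⟨d, hd⟩, ⟨m, hd.of_mul hc⟩), rfl⟩
  have hsum : Summable fun p : {m : O // Primary m} × {m : O // Primary m} =>
      (mu p.1.1 : ℝ) * ((N p.1.1 : ℝ) ^ 2)⁻¹ * ((N p.2.1 : ℝ) ^ 2)⁻¹ :=
    summable_mul_of_summable_norm summable_Z2'.norm summable_ZP.norm
  have hsG : Summable G := by
    rw [← hinj.summable_iff (fun x hx => by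
      by_contra hcon
      exact hx (hsupp hcon))]
    exact hsum.congr fun p => (hGi p).symm
  rw [tsum_congr (fun p => (hGi p).symm), hinj.tsum_eq hsupp, hsG.tsum_prod]
  have hin : ∀ c : O, ∑' d : O, G (c, d) = if c = 1 then 1 else 0 := by
    intro c
    by_cases hc : Primary c
    · rw [tsum_eq_sum (s := PO.divs c)]
      · have h3 : ∑ d ∈ PO.divs c, G (c, d) =
            ((∑ d ∈ PO.divs c, mu d : ℤ) : ℝ) * ((N c : ℝ) ^ 2)⁻¹ := by
          push_cast
          rw [Finset.sum_mul]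
          refine Finset.sum_congr rfl fun d hd => ?_
          rw [mem_divs hc] at hd
          simp only [hG]
          rw [if_pos ⟨hc, hd.1, hd.2⟩]
        rw [h3, sum_mu_divs hc]
        split_ifs with h
        · subst h; simp
        · simp
      · intro d hd
        simp only [hG]
        rw [if_neg]
        rintro ⟨_, h4, h5⟩
        exact hd ((mem_divs hc).2 ⟨h4, h5⟩)
    · have hc1 : c ≠ 1 := fun h => hc (h ▸ primary_one)
      rw [if_neg hc1]
      have : ∀ d, G (c, d) = 0 := fun d => by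
        simp only [hG]
        rw [if_neg (fun h => hc h.1)]
      simp [this]
  rw [tsum_congr hin, tsum_ite_eq]

theorem Z2_pos : 0 < Z2 := by
  by_contra h
  have h1 := Z2_mul_ZP
  have h2 := ZP_pos
  nlinarith

theorem kap_pos : 0 < kap := mul_pos C0_pos Z2_pos

theorem kap_eq : kap = C0 / ZP := by
  rw [kap, eq_div_iff ZP_pos.ne', mul_assoc, Z2_mul_ZP, mul_one]

end Vale.Agent.P006.TI
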