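import Vale.Agent.P006.CR.Residue
import Vale.Agent.P006.H570.Inst

/-!
P006, block TI: the Möbius function on the Eisenstein integers and the two basic identities
`∑_{d ∣ c} μ(d) = [c = 1]`, `∑_{d² ∣ c} μ(d) = μ²(c)` for primary `c`.
-/

namespace Vale.Agent.P006.TI

open Vale.Agent.P006 Finset UniqueFactorizationMonoid
open Vale.Agent.P006.H570 (PO)

/-- number of prime factors with multiplicity -/
noncomputable def Om (c : O) : ℕ := Multiset.card (factors c)

theorem Om_one : Om 1 = 0 := by simp [Om, factors_one]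

theorem Om_prime_mul {p d : O} (hp : Prime p) (hd : d ≠ 0) : Om (p * d) = Om d + 1 := by
  have h := Multiset.card_eq_card_of_rel (factors_mul hp.ne_zero hd)
  rw [Om, Om, h, Multiset.card_add, card_factors_of_irreducible hp.irreducible, add_comm]

open Classical in
/-- the Möbius function on `O` -/
noncomputable def mu (c : O) : ℤ := if Squarefree c then (-1) ^ Om c else 0

theorem mu_one : mu 1 = 1 := by simp [mu, Om_one]

theorem mu_of_squarefree {c : O} (h : Squarefree c) : mu c = (-1) ^ Om c := by
  rw [mu, if_pos h]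

theorem mu_of_not_squarefree {c : O} (h : ¬ Squarefree c) : mu c = 0 := by
  rw [mu, if_neg h]

theorem squarefree_of_mu_ne_zero {c : O} (h : mu c ≠ 0) : Squarefree c := by
  by_contra h'; exact h (mu_of_not_squarefree h')

theorem abs_mu_le (c : O) : |mu c| ≤ 1 := by
  by_cases h : Squarefree c
  · rw [mu_of_squarefree h, abs_pow]; simp
  · rw [mu_of_not_squarefree h]; simp

theorem mu_sq {c : O} (h : Squarefree c) : mu c * mu c = 1 := by
  rw [mu_of_squarefree h, ← pow_add, ← two_mul, pow_mul]; simp

theorem squarefree_prime_mul_iff {p d : O} (hp : Prime p) (hpd : ¬ p ∣ d) :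
    Squarefree (p * d) ↔ Squarefree d := by
  rw [squarefree_mul_iff]
  constructor
  · exact fun h => h.2.2
  · intro h
    exact ⟨(hp.irreducible.isRelPrime_iff_not_dvd).2 hpd, hp.irreducible.squarefree, h⟩

theorem mu_prime_mul {p d : O} (hp : Prime p) (hpd : ¬ p ∣ d) : mu (p * d) = - mu d := by
  have hd : d ≠ 0 := fun h => hpd (h ▸ dvd_zero p)
  by_cases h : Squarefree d
  · rw [mu_of_squarefree h, mu_of_squarefree ((squarefree_prime_mul_iff hp hpd).2 h),
      Om_prime_mul hp hd, pow_succ]; ring
  · rw [mu_of_not_squarefree h,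
      mu_of_not_squarefree (fun h' => h ((squarefree_prime_mul_iff hp hpd).1 h'))]; simp

/-- toggling a prime -/
noncomputable def tog (p d : O) : O := if p ∣ d then d / p else p * d

theorem mul_div_self {p d : O} (hp : p ≠ 0) : (p * d) / p = d := by
  exact mul_div_cancel_left₀ d hp

theorem mu_tog {p d : O} (hp : Prime p) (hd : Squarefree d) : mu (tog p d) = - mu d := by
  unfold tog
  split_ifs with h
  · obtain ⟨d', rfl⟩ := h
    have h1 : ¬ p ∣ d' := by
      rintro ⟨d'', rfl⟩
      exact hp.not_isUnit (hd p ⟨d'', by ring⟩)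
    rw [mul_div_self hp.ne_zero, mu_prime_mul hp h1]; ring
  · exact mu_prime_mul hp h

theorem squarefree_tog {p d : O} (hp : Prime p) (hd : Squarefree d) : Squarefree (tog p d) := by
  apply squarefree_of_mu_ne_zero
  rw [mu_tog hp hd]
  intro h
  have := mu_sq hd
  rw [neg_eq_zero.1 h] at this
  simp at this

theorem tog_ne {p d : O} (hp : Prime p) (hd : Squarefree d) : tog p d ≠ d := by
  intro h
  have h1 := mu_tog hp hd
  rw [h] at h1
  have h2 := mu_sq hd
  have : mu d = 0 := by linarith
  rw [this] at h2; simp at h2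

theorem tog_tog {p d : O} (hp : Prime p) (hd : Squarefree d) : tog p (tog p d) = d := by
  unfold tog
  split_ifs with h h2 h3
  · obtain ⟨d', rfl⟩ := h
    rw [mul_div_self hp.ne_zero] at h2
    exfalso
    obtain ⟨d'', rfl⟩ := h2
    exact hp.not_isUnit (hd p ⟨d'', by ring⟩)
  · obtain ⟨d', rfl⟩ := h
    rw [mul_div_self hp.ne_zero]
  · exact mul_div_self hp.ne_zero
  · exact absurd (dvd_mul_right p d) h3

open Classical in
/-- the abstract toggling argument: if a finite set of squarefree elements is stable under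
toggling `p` (on squarefree elements), the sum of `μ` vanishes -/
theorem sum_mu_eq_zero_of_tog {s : Finset O} {p : O} (hp : Prime p)
    (hs : ∀ d ∈ s, Squarefree d → tog p d ∈ s) : ∑ d ∈ s, mu d = 0 := by
  refine Finset.sum_involution (fun d _ => if Squarefree d then tog p d else d) ?_ ?_ ?_ ?_
  · intro d _
    split_ifs with h
    · rw [mu_tog hp h]; ring
    · rw [mu_of_not_squarefree h]; simp
  · intro d _ h
    have h' := squarefree_of_mu_ne_zero h
    rw [if_pos h']
    exact tog_ne hp h'
  · intro d hd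
    split_ifs with h
    · exact hs d hd h
    · exact hd
  · intro d hd
    split_ifs with h h2
    · exact tog_tog hp h
    · exact absurd (squarefree_tog hp h) h2
    · rfl

theorem primary_of_mul_right {p d : O} (hp : Primary p) (h : Primary (p * d)) : Primary d :=
  hp.of_mul h

theorem Primary_tog {p d : O} (hp0 : p ≠ 0) (hp : Primary p) (hd : Primary d) :
    Primary (tog p d) := by
  unfold tog
  split_ifs with h
  · obtain ⟨d', rfl⟩ := h
    rw [mul_div_self hp0]; exact hp.of_mul hd
  · exact hp.mul hd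

/-- a primary element different from `1` has a primary prime divisor -/
theorem exists_prime_dvd {c : O} (hc : Primary c) (h1 : c ≠ 1) :
    ∃ p, Prime p ∧ Primary p ∧ p ∣ c := by
  revert h1
  refine Primary.induction (P := fun c => c ≠ 1 → ∃ p, Prime p ∧ Primary p ∧ p ∣ c)
    (fun h => absurd rfl h) ?_ c hc
  intro π b hπ hπp _ _ _
  exact ⟨π, hπ, hπp, dvd_mul_right _ _⟩

/-- every prime divisor of a primary element is associated to a primary prime -/
theorem exists_primary_associated {c q : O} (hc : Primary c) (hq : Prime q) (h : q ∣ c) :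
    ∃ p, Prime p ∧ Primary p ∧ Associated q p ∧ p ∣ c := by
  have hl : ¬ lam ∣ q := fun h' => hc.not_lam_dvd (h'.trans h)
  obtain ⟨u, hu, hp⟩ := exists_unit_mul_primary hl
  have ha : Associated q (u * q) := associated_unit_mul_right q u hu
  exact ⟨u * q, ha.prime hq, hp, ha, ha.symm.dvd.trans h⟩

theorem mem_divs {c d : O} (hc : Primary c) : d ∈ PO.divs c ↔ Primary d ∧ d ∣ c :=
  PO.mem_divs hc

theorem sum_mu_divs {c : O} (hc : Primary c) : ∑ d ∈ PO.divs c, mu d = if c = 1 then 1 else 0 := by
  split_ifs with h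
  · subst h
    have : PO.divs 1 = {1} := by
      ext d
      rw [mem_divs primary_one, mem_singleton]
      constructor
      · rintro ⟨h1, h2⟩; exact h1.eq_one (isUnit_of_dvd_one h2)
      · rintro rfl; exact ⟨primary_one, dvd_rfl⟩
    rw [this]; simp [mu_one]
  · obtain ⟨p, hp, hpp, hpc⟩ := exists_prime_dvd hc h
    refine sum_mu_eq_zero_of_tog hp fun d hd hsq => ?_
    rw [mem_divs hc] at hd ⊢
    refine ⟨Primary_tog hp.ne_zero hpp hd.1, ?_⟩
    unfold tog
    split_ifs with h'
    · obtain ⟨d', rfl⟩ := h'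
      rw [mul_div_self hp.ne_zero]
      exact (dvd_mul_left d' p).trans hd.2
    · have hcop : IsCoprime p d := (hp.coprime_iff_not_dvd).2 h'
      exact hcop.mul_dvd hpc hd.2

open Classical in
/-- common divisors: `∑_{e ∣ c, e ∣ b} μ(e) = [(c,b) = 1]` -/
theorem sum_mu_common {b c : O} (hb : Primary b) (hc : Primary c) :
    ∑ e ∈ (PO.divs b).filter (fun e => e ∣ c), mu e = if IsCoprime c b then 1 else 0 := by
  split_ifs with h
  · have : (PO.divs b).filter (fun e => e ∣ c) = {1} := by
      ext d
      rw [mem_filter, mem_divs hb, mem_singleton]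
      constructor
      · rintro ⟨⟨h1, h2⟩, h3⟩; exact h1.eq_one (h.isUnit_of_dvd' h3 h2)
      · rintro rfl; exact ⟨⟨primary_one, one_dvd _⟩, one_dvd _⟩
    rw [this]; simp [mu_one]
  · have : ∃ p, Prime p ∧ Primary p ∧ p ∣ c ∧ p ∣ b := by
      by_contra hcon
      push Not at hcon
      apply h
      have hg : IsUnit (EuclideanDomain.gcd c b) := by
        by_contra hg
        have h0 : EuclideanDomain.gcd c b ≠ 0 := by
          intro h0; rw [EuclideanDomain.gcd_eq_zero_iff] at h0; exact hc.ne_zero h0.1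
        obtain ⟨q, hq, hqd⟩ := WfDvdMonoid.exists_irreducible_factor hg h0
        have hqc : q ∣ c := hqd.trans (EuclideanDomain.gcd_dvd_left c b)
        have hqb : q ∣ b := hqd.trans (EuclideanDomain.gcd_dvd_right c b)
        obtain ⟨p, hp, hpp, ha, hpc⟩ := exists_primary_associated hc hq.prime hqc
        exact hcon p hp hpp hpc (ha.symm.dvd.trans hqb)
      exact EuclideanDomain.gcd_isUnit_iff.1 hg
    obtain ⟨p, hp, hpp, hpc, hpb⟩ := this
    refine sum_mu_eq_zero_of_tog hp fun d hd hsq => ?_
    rw [mem_filter, mem_divs hb] at hd ⊢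
    have key : ∀ x : O, p ∣ x → d ∣ x → tog p d ∣ x := by
      intro x hpx hdx
      unfold tog
      split_ifs with h'
      · obtain ⟨d', rfl⟩ := h'
        rw [mul_div_self hp.ne_zero]
        exact (dvd_mul_left d' p).trans hdx
      · have hcop : IsCoprime p d := (hp.coprime_iff_not_dvd).2 h'
        exact hcop.mul_dvd hpx hdx
    exact ⟨⟨Primary_tog hp.ne_zero hpp hd.1.1, key _ hpb hd.1.2⟩, key _ hpc hd.2⟩

open Classical in
/-- `∑_{d² ∣ c} μ(d) = μ²(c)` -/
theorem sum_mu_sq_dvd {c : O} (hc : Primary c) :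
    ∑ d ∈ (PO.divs c).filter (fun d => d ^ 2 ∣ c), mu d = if Squarefree c then 1 else 0 := by
  split_ifs with h
  · have : (PO.divs c).filter (fun d => d ^ 2 ∣ c) = {1} := by
      ext d
      rw [mem_filter, mem_divs hc, mem_singleton]
      constructor
      · rintro ⟨⟨h1, h2⟩, h3⟩; exact h1.eq_one (h d (by rwa [← sq]))
      · rintro rfl; exact ⟨⟨primary_one, one_dvd _⟩, by simp⟩
    rw [this]; simp [mu_one]
  · have : ∃ p, Prime p ∧ Primary p ∧ p ^ 2 ∣ c := by
      rw [Squarefree] at h
      push Not at h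
      obtain ⟨x, hx, hxu⟩ := h
      have hx0 : x ≠ 0 := by
        rintro rfl
        rw [mul_zero, zero_dvd_iff] at hx; exact hc.ne_zero hx
      obtain ⟨q, hq, hqd⟩ := WfDvdMonoid.exists_irreducible_factor hxu hx0
      have hqc : q ∣ c := hqd.trans ((dvd_mul_right x x).trans hx)
      obtain ⟨p, hp, hpp, ha, hpc⟩ := exists_primary_associated hc hq.prime hqc
      refine ⟨p, hp, hpp, ?_⟩
      rw [sq]
      have : p ∣ x := ha.symm.dvd.trans hqd
      exact (mul_dvd_mul this this).trans hx
    obtain ⟨p, hp, hpp, hpc⟩ := this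
    refine sum_mu_eq_zero_of_tog hp fun d hd hsq => ?_
    rw [mem_filter, mem_divs hc] at hd ⊢
    have hpc1 : p ∣ c := (dvd_pow_self p two_ne_zero).trans hpc
    unfold tog
    refine ⟨⟨Primary_tog hp.ne_zero hpp hd.1.1, ?_⟩, ?_⟩
    · split_ifs with h'
      · obtain ⟨d', rfl⟩ := h'
        rw [mul_div_self hp.ne_zero]
        exact (dvd_mul_left d' p).trans hd.1.2
      · have hcop : IsCoprime p d := (hp.coprime_iff_not_dvd).2 h'
        exact hcop.mul_dvd hpc1 hd.1.2
    · split_ifs with h'
      · obtain ⟨d', rfl⟩ := h'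
        rw [mul_div_self hp.ne_zero]
        exact (pow_dvd_pow_of_dvd (dvd_mul_left d' p) 2).trans hd.2
      · have hcop : IsCoprime (p ^ 2) (d ^ 2) := ((hp.coprime_iff_not_dvd).2 h').pow
        rw [mul_pow]
        exact hcop.mul_dvd hpc hd.2

end Vale.Agent.P006.TI
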