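import Vale.Agent.P006.TI.Model

/-!
P006, block TI: assembly of the Type I estimate (mean square form) from the Gauss sum side (TI-1)
and the model side (TI-2).
-/

namespace Vale.Agent.P006.TI

open Vale.Agent.P006 MeasureTheory Set Filter
open Vale.Agent.P006.KER (Nice)
open scoped ContDiff Topology

open Classical in
/-- the squarefree primary elements with `R ≤ N r ≤ 2 R` -/
noncomputable def SR (R : ℝ) : Finset O := (SQ (2 * R)).filter (fun r => R ≤ (N r : ℝ))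

theorem mem_SR {R : ℝ} {r : O} :
    r ∈ SR R ↔ Primary r ∧ Squarefree r ∧ R ≤ (N r : ℝ) ∧ (N r : ℝ) ≤ 2 * R := by
  simp only [SR, Finset.mem_filter, mem_SQ]; tauto

theorem card_SR_le {R : ℝ} (hR : 0 ≤ R) : ((SR R).card : ℝ) ≤ 8 * R := by
  have h1 : SR R ⊆ PB (2 * R) := by
    intro r hr
    rw [mem_SR] at hr
    rw [mem_PB]; exact ⟨hr.1, hr.2.2.2⟩
  calc ((SR R).card : ℝ) ≤ ((PB (2 * R)).card : ℝ) := by exact_mod_cast Finset.card_le_card h1
    _ ≤ 4 * (2 * R) := card_PB_le (by linarith)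
    _ = 8 * R := by ring

/-- the smooth sum over multiples of `r` -/
noncomputable def wsum (w : O → ℂ) (U : ℝ → ℂ) (Z X t : ℝ) (r : O) : ℂ :=
  ∑ c ∈ SM r Z, w c * ((N c : ℂ) ^ ((t : ℂ) * Complex.I) * U (N c / X))

/-- the shape of the main term -/
noncomputable def mt (U : ℝ → ℂ) (X t : ℝ) (r : O) : ℂ :=
  (vr r : ℂ) * ((X : ℂ) ^ ((5 / 6 : ℂ) + t * Complex.I) * mellin U ((5 / 6 : ℂ) + t * Complex.I))

/-- mean square Type I estimate for `g` with main term `ρ` (this is TI-1 for the Gauss sums) -/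
def MSq (g : O → ℂ) (ρ : ℂ) (A B : ℝ) : Prop :=
  ∀ (U : ℝ → ℂ) (a b : ℝ), Nice U a b → ∀ ε : ℝ, 0 < ε → ∃ C : ℝ, 0 ≤ C ∧
    ∀ X R t : ℝ, 1 ≤ R → R ≤ X →
      ∑ r ∈ SR R, ‖wsum g U (b * X) X t r - ρ * mt U X t r‖ ^ 2 ≤
        C * X ^ ε * (X * (1 + |t|) ^ A + X / R * (1 + |t|) ^ B)

/-- mean square Type I estimate without main term, all `X > 0`, `R ≥ 1` -/
def L2f (w : O → ℂ) (A B : ℝ) : Prop :=
  ∀ (U : ℝ → ℂ) (a b : ℝ), Nice U a b → ∀ ε : ℝ, 0 < ε → ∃ C : ℝ, 0 ≤ C ∧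
    ∀ X R t : ℝ, 0 < X → 1 ≤ R →
      ∑ r ∈ SR R, ‖wsum w U (b * X) X t r‖ ^ 2 ≤
        C * X ^ ε * (X * (1 + |t|) ^ A + X / R * (1 + |t|) ^ B)

theorem exists_norm_le {U : ℝ → ℂ} {a b : ℝ} (H : Nice U a b) :
    ∃ S : ℝ, 0 ≤ S ∧ ∀ x, ‖U x‖ ≤ S := by
  obtain ⟨S, hS⟩ := H.cont.bounded_above_of_compact_support H.hcs
  exact ⟨S, (norm_nonneg _).trans (hS 0), hS⟩

theorem norm_natCast_cpow_I {c : O} (hc : c ≠ 0) (t : ℝ) :
    ‖(N c : ℂ) ^ ((t : ℂ) * Complex.I)‖ = 1 := by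
  have hN : 0 < N c := N_pos hc
  rw [Complex.norm_natCast_cpow_of_pos hN]
  simp

/-- trivial bound -/
theorem norm_wsum_le {w : O → ℂ} {U : ℝ → ℂ} {a b S W : ℝ} (H : Nice U a b)
    (hS : ∀ x, ‖U x‖ ≤ S) {X : ℝ} (hX : 0 < X)
    (hw : ∀ c, Primary c → Squarefree c → a * X ≤ N c → ‖w c‖ ≤ W) (hW : 0 ≤ W)
    (t : ℝ) {r : O} (hr : Primary r) (hs : Squarefree r) :
    ‖wsum w U (b * X) X t r‖ ≤ W * S * (4 * (b * X / N r)) := by
  have hS0 : 0 ≤ S := (norm_nonneg _).trans (hS 0)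
  have hb : 0 < b := H.pos.trans_le H.le
  have hN : (0 : ℝ) < N r := by exact_mod_cast N_pos hr.ne_zero
  have h1 : ∀ c ∈ SM r (b * X), ‖w c * ((N c : ℂ) ^ ((t : ℂ) * Complex.I) * U (N c / X))‖ ≤
      W * S := by
    intro c hc
    rw [mem_SM] at hc
    rw [norm_mul, norm_mul, norm_natCast_cpow_I hc.1.ne_zero, one_mul]
    by_cases h : a * X ≤ N c
    · exact mul_le_mul (hw c hc.1 hc.2.1 h) (hS _) (norm_nonneg _) hW
    · have : (N c : ℝ) / X < a := by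
        rw [div_lt_iff₀ hX]; exact not_le.1 h
      rw [H.eq_zero_of_le this, norm_zero, mul_zero]
      positivity
  unfold wsum
  refine (norm_sum_le_of_le _ h1).trans ?_
  rw [Finset.sum_const, nsmul_eq_mul, card_SM hr hs]
  have h2 : SC r (b * X / N r) ⊆ PB (b * X / N r) := by
    intro c hc
    rw [mem_SC] at hc
    rw [mem_PB]; exact ⟨hc.1, hc.2.2.2⟩
  have h3 : ((SC r (b * X / N r)).card : ℝ) ≤ 4 * (b * X / N r) :=
    (by exact_mod_cast Finset.card_le_card h2 : ((SC r (b * X / N r)).card : ℝ) ≤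
      ((PB (b * X / N r)).card : ℝ)).trans (card_PB_le (by positivity))
  calc ((SC r (b * X / N r)).card : ℝ) * (W * S) ≤ 4 * (b * X / N r) * (W * S) := by gcongr
    _ = _ := by ring

theorem vr_le_inv {r : O} (hr : Primary r) (hs : Squarefree r) : vr r ≤ (N r : ℝ)⁻¹ := by
  have hN : (0 : ℝ) < N r := by exact_mod_cast N_pos hr.ne_zero
  have h := N_mul_vr_le_one hr hs
  rw [← one_div, le_div_iff₀ hN]; linarith

theorem norm_mellin_le {U : ℝ → ℂ} {a b : ℝ} (_H : Nice U a b) (t : ℝ) :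
    ‖mellin U ((5 / 6 : ℂ) + t * Complex.I)‖ ≤ ∫ u in Ioi (0 : ℝ), u ^ (-(1 / 6) : ℝ) * ‖U u‖ := by
  unfold mellin
  refine (norm_integral_le_integral_norm _).trans (le_of_eq ?_)
  refine setIntegral_congr_fun measurableSet_Ioi fun u hu => ?_
  have hu0 : (0 : ℝ) < u := hu
  show ‖(u : ℂ) ^ ((5 / 6 : ℂ) + t * Complex.I - 1) • U u‖ = u ^ (-(1 / 6) : ℝ) * ‖U u‖
  rw [norm_smul, Complex.norm_cpow_eq_rpow_re_of_pos hu0]
  congr 2
  simp
  norm_num

/-- the model coefficient -/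
noncomputable def mc (c : O) : ℂ := (N c : ℂ) ^ (((-(1 / 6) : ℝ)) : ℂ)

theorem norm_mc {c : O} (hc : c ≠ 0) : ‖mc c‖ = (N c : ℝ) ^ (-(1 / 6) : ℝ) := by
  have hN : 0 < N c := N_pos hc
  rw [mc, Complex.norm_natCast_cpow_of_pos hN, Complex.ofReal_re]

/-- model sums, first bound -/
theorem model_bound_one {U : ℝ → ℂ} {a b : ℝ} (H : Nice U a b) {ε : ℝ} (hε : 0 < ε) :
    ∃ C : ℝ, 0 ≤ C ∧ ∀ X R t : ℝ, 1 ≤ R → R ≤ X →
      ∑ r ∈ SR R, ‖wsum mc U (b * X) X t r - (kap : ℂ) * mt U X t r‖ ^ 2 ≤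
        C * X ^ ε * (X ^ (2 / 3 : ℝ) * (1 + |t|) ^ 2) := by
  set δ : ℝ := min (ε / 2) (1 / 2) with hδ
  have hδ0 : 0 < δ := by rw [hδ]; positivity
  have hδ1 : δ ≤ 1 / 2 := min_le_right _ _
  have hδ2 : 2 * δ ≤ ε := by
    have := min_le_left (ε / 2) (1 / 2 : ℝ)
    rw [← hδ] at this; linarith
  obtain ⟨CD, hCD1, hCD⟩ := HB.card_D_le hδ0
  set K : ℝ := M1 (1 / 2 + δ) * CU U (-(1 / 6)) (1 / 2 + δ) with hK
  have hK0 : 0 ≤ K := mul_nonneg (M1_nonneg _) (CU_nonneg _ _ _)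
  refine ⟨8 * (K * CD) ^ 2, by positivity, fun X R t hR hRX => ?_⟩
  have hX : 1 ≤ X := hR.trans hRX
  have hX0 : 0 < X := by linarith
  have hterm : ∀ r ∈ SR R, ‖wsum mc U (b * X) X t r - (kap : ℂ) * mt U X t r‖ ^ 2 ≤
      (K * CD) ^ 2 * X ^ ε * (X ^ (2 / 3 : ℝ) * (1 + |t|) ^ 2) * R⁻¹ := by
    intro r hr
    rw [mem_SR] at hr
    obtain ⟨hr1, hr2, hr3, hr4⟩ := hr
    have hN : (0 : ℝ) < N r := by exact_mod_cast N_pos hr1.ne_zero
    have h1 := model_sum (θ := 1 / 2 + δ) H (by linarith) (by linarith) (-(1 / 6)) t hX0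
      (le_refl (b * X)) hr1 hr2
    have e1 : ∑ c ∈ SM r (b * X), (N c : ℂ) ^ ((((-(1 / 6) : ℝ)) : ℂ) + t * Complex.I) *
        U (N c / X) = wsum mc U (b * X) X t r := by
      unfold wsum
      refine Finset.sum_congr rfl fun c hc => ?_
      rw [mem_SM] at hc
      have hNc : (N c : ℂ) ≠ 0 := by exact_mod_cast (N_pos hc.1.ne_zero).ne'
      rw [Complex.cpow_add _ _ hNc, mc]; ring
    have e2 : ((((-(1 / 6) : ℝ)) : ℂ) + t * Complex.I + 1) = (5 / 6 : ℂ) + t * Complex.I := by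
      push_cast; ring
    rw [e1, e2] at h1
    have e3 : ((kap * vr r : ℝ) : ℂ) * (X : ℂ) ^ ((5 / 6 : ℂ) + t * Complex.I) *
        mellin U ((5 / 6 : ℂ) + t * Complex.I) = (kap : ℂ) * mt U X t r := by
      unfold mt; push_cast; ring
    rw [e3] at h1
    have h2 := hCD r hr1 hr2
    have h3 : X ^ (-(1 / 6) : ℝ) * (X / N r) ^ (1 / 2 + δ) =
        X ^ (1 / 3 + δ) * (N r : ℝ) ^ (-(1 / 2 + δ)) := by
      have hx : X ^ (1 / 3 + δ) = X ^ (-(1 / 6) : ℝ) * X ^ (1 / 2 + δ) := by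
        rw [← Real.rpow_add hX0]; congr 1; ring
      rw [Real.div_rpow hX0.le hN.le, Real.rpow_neg hN.le, hx]
      ring
    rw [h3] at h1
    have h4 : ‖wsum mc U (b * X) X t r - (kap : ℂ) * mt U X t r‖ ≤
        K * CD * (1 + |t|) * (X ^ (1 / 3 + δ) * (N r : ℝ) ^ (-(1 / 2) : ℝ)) := by
      refine h1.trans ?_
      have h5 : (N r : ℝ) ^ (-(1 / 2) : ℝ) = (N r : ℝ) ^ δ * (N r : ℝ) ^ (-(1 / 2 + δ)) := by
        rw [← Real.rpow_add hN]; congr 1; ring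
      rw [h5]
      have h6 := M1_nonneg (1 / 2 + δ)
      have h7 := CU_nonneg U (-(1 / 6)) (1 / 2 + δ)
      calc M1 (1 / 2 + δ) * (HB.D r).card * CU U (-(1 / 6)) (1 / 2 + δ) * (1 + |t|) *
            (X ^ (1 / 3 + δ) * (N r : ℝ) ^ (-(1 / 2 + δ)))
          ≤ M1 (1 / 2 + δ) * (CD * (N r : ℝ) ^ δ) * CU U (-(1 / 6)) (1 / 2 + δ) * (1 + |t|) *
            (X ^ (1 / 3 + δ) * (N r : ℝ) ^ (-(1 / 2 + δ))) := by gcongr
        _ = _ := by rw [hK]; ring
    have h8 : (X ^ (1 / 3 + δ)) ^ 2 ≤ X ^ ε * X ^ (2 / 3 : ℝ) := by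
      rw [← Real.rpow_natCast, ← Real.rpow_mul hX0.le, ← Real.rpow_add hX0]
      apply Real.rpow_le_rpow_of_exponent_le hX
      push_cast; linarith
    have h9 : ((N r : ℝ) ^ (-(1 / 2) : ℝ)) ^ 2 ≤ R⁻¹ := by
      rw [← Real.rpow_natCast, ← Real.rpow_mul hN.le]
      norm_num
      rw [Real.rpow_neg_one]
      exact inv_anti₀ (by linarith) hr3
    calc ‖wsum mc U (b * X) X t r - (kap : ℂ) * mt U X t r‖ ^ 2
        ≤ (K * CD * (1 + |t|) * (X ^ (1 / 3 + δ) * (N r : ℝ) ^ (-(1 / 2) : ℝ))) ^ 2 := by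
          gcongr
      _ = (K * CD) ^ 2 * (1 + |t|) ^ 2 * ((X ^ (1 / 3 + δ)) ^ 2 *
            ((N r : ℝ) ^ (-(1 / 2) : ℝ)) ^ 2) := by ring
      _ ≤ (K * CD) ^ 2 * (1 + |t|) ^ 2 * ((X ^ ε * X ^ (2 / 3 : ℝ)) * R⁻¹) := by gcongr
      _ = _ := by ring
  have h10 := Finset.sum_le_sum hterm
  rw [Finset.sum_const, nsmul_eq_mul] at h10
  refine h10.trans ?_
  have h11 := card_SR_le (show 0 ≤ R by linarith)
  have hR0 : 0 < R := by linarith
  calc ((SR R).card : ℝ) * ((K * CD) ^ 2 * X ^ ε * (X ^ (2 / 3 : ℝ) * (1 + |t|) ^ 2) * R⁻¹)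
      ≤ (8 * R) * ((K * CD) ^ 2 * X ^ ε * (X ^ (2 / 3 : ℝ) * (1 + |t|) ^ 2) * R⁻¹) := by gcongr
    _ = _ := by field_simp

/-- model sums, trivial bound -/
theorem model_bound_two {U : ℝ → ℂ} {a b : ℝ} (H : Nice U a b) :
    ∃ C : ℝ, 0 ≤ C ∧ ∀ X R t : ℝ, 1 ≤ R → R ≤ X →
      ∑ r ∈ SR R, ‖wsum mc U (b * X) X t r - (kap : ℂ) * mt U X t r‖ ^ 2 ≤
        C * (X / R * X ^ (2 / 3 : ℝ)) := by
  obtain ⟨S, hS0, hS⟩ := exists_norm_le H
  have ha := H.pos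
  have hb : 0 < b := H.pos.trans_le H.le
  set MU : ℝ := ∫ u in Ioi (0 : ℝ), u ^ (-(1 / 6) : ℝ) * ‖U u‖ with hMU
  have hMU0 : 0 ≤ MU := setIntegral_nonneg measurableSet_Ioi fun u hu => by
    have : (0 : ℝ) < u := hu
    positivity
  set K : ℝ := a ^ (-(1 / 6) : ℝ) * S * (4 * b) + |kap| * MU with hK
  have hK0 : 0 ≤ K := by positivity
  refine ⟨8 * K ^ 2, by positivity, fun X R t hR hRX => ?_⟩
  have hX : 1 ≤ X := hR.trans hRX
  have hX0 : 0 < X := by linarith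
  have hR0 : 0 < R := by linarith
  have hterm : ∀ r ∈ SR R, ‖wsum mc U (b * X) X t r - (kap : ℂ) * mt U X t r‖ ^ 2 ≤
      K ^ 2 * X ^ (5 / 3 : ℝ) * (R⁻¹) ^ 2 := by
    intro r hr
    rw [mem_SR] at hr
    obtain ⟨hr1, hr2, hr3, hr4⟩ := hr
    have hN : (0 : ℝ) < N r := by exact_mod_cast N_pos hr1.ne_zero
    have h1 : ‖wsum mc U (b * X) X t r‖ ≤
        (a * X) ^ (-(1 / 6) : ℝ) * S * (4 * (b * X / N r)) := by
      refine norm_wsum_le H hS hX0 (fun c hc _ hca => ?_) (by positivity) t hr1 hr2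
      rw [norm_mc hc.ne_zero]
      exact Real.rpow_le_rpow_of_nonpos (by positivity) hca (by norm_num)
    have h2 : ‖(kap : ℂ) * mt U X t r‖ ≤ |kap| * ((N r : ℝ)⁻¹ * (X ^ (5 / 6 : ℝ) * MU)) := by
      rw [mt, norm_mul, norm_mul, norm_mul, Complex.norm_real, Complex.norm_real,
        Real.norm_eq_abs, Real.norm_eq_abs, abs_of_pos (vr_pos r),
        Complex.norm_cpow_eq_rpow_re_of_pos hX0]
      have h3 : ((5 / 6 : ℂ) + t * Complex.I).re = 5 / 6 := by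
        simp
      rw [h3]
      gcongr
      · exact vr_le_inv hr1 hr2
      · exact norm_mellin_le H t
    have hx : X ^ (5 / 6 : ℝ) = X ^ (-(1 / 6) : ℝ) * X := by
      nth_rewrite 3 [← Real.rpow_one X]
      rw [← Real.rpow_add hX0]; congr 1; ring
    have h3 : ‖wsum mc U (b * X) X t r - (kap : ℂ) * mt U X t r‖ ≤
        K * X ^ (5 / 6 : ℝ) * R⁻¹ := by
      refine (norm_sub_le _ _).trans ?_
      have h4 : (N r : ℝ)⁻¹ ≤ R⁻¹ := inv_anti₀ hR0 hr3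
      calc ‖wsum mc U (b * X) X t r‖ + ‖(kap : ℂ) * mt U X t r‖
          ≤ (a * X) ^ (-(1 / 6) : ℝ) * S * (4 * (b * X / N r)) +
            |kap| * ((N r : ℝ)⁻¹ * (X ^ (5 / 6 : ℝ) * MU)) := add_le_add h1 h2
        _ = K * X ^ (5 / 6 : ℝ) * (N r : ℝ)⁻¹ := by
            rw [Real.mul_rpow ha.le hX0.le, hx, hK]; ring
        _ ≤ K * X ^ (5 / 6 : ℝ) * R⁻¹ := by gcongr
    have h5 : (X ^ (5 / 6 : ℝ)) ^ 2 = X ^ (5 / 3 : ℝ) := by
      rw [← Real.rpow_natCast, ← Real.rpow_mul hX0.le]; norm_num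
    calc ‖wsum mc U (b * X) X t r - (kap : ℂ) * mt U X t r‖ ^ 2
        ≤ (K * X ^ (5 / 6 : ℝ) * R⁻¹) ^ 2 := by gcongr
      _ = K ^ 2 * (X ^ (5 / 6 : ℝ)) ^ 2 * (R⁻¹) ^ 2 := by ring
      _ = _ := by rw [h5]
  have h10 := Finset.sum_le_sum hterm
  rw [Finset.sum_const, nsmul_eq_mul] at h10
  refine h10.trans ?_
  have h11 := card_SR_le hR0.le
  have hx : X ^ (5 / 3 : ℝ) = X * X ^ (2 / 3 : ℝ) := by
    nth_rewrite 2 [← Real.rpow_one X]
    rw [← Real.rpow_add hX0]; congr 1; ring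
  calc ((SR R).card : ℝ) * (K ^ 2 * X ^ (5 / 3 : ℝ) * (R⁻¹) ^ 2)
      ≤ (8 * R) * (K ^ 2 * X ^ (5 / 3 : ℝ) * (R⁻¹) ^ 2) := by gcongr
    _ = _ := by rw [hx]; field_simp

/-- **TI-2 in mean square form**: the model satisfies the Type I estimate with constant `kap`. -/
theorem model_MSq {A B : ℝ} (hA : 1 ≤ A) (hB : 2 ≤ B) : MSq mc (kap : ℂ) A B := by
  intro U a b H ε hε
  obtain ⟨C1, hC1, h1⟩ := model_bound_one H hε
  obtain ⟨C2, hC2, h2⟩ := model_bound_two H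
  refine ⟨C1 + C2, by positivity, fun X R t hR hRX => ?_⟩
  have hX : 1 ≤ X := hR.trans hRX
  have hX0 : 0 < X := by linarith
  have hR0 : 0 < R := by linarith
  set T : ℝ := 1 + |t| with hT
  have hT1 : 1 ≤ T := by rw [hT]; linarith [abs_nonneg t]
  have hT0 : 0 < T := by linarith
  have hXε : 1 ≤ X ^ ε := Real.one_le_rpow hX hε.le
  have hTA : 0 ≤ X * T ^ A := by positivity
  have hTB : 0 ≤ X / R * T ^ B := by positivity
  rcases le_or_gt T (X ^ (1 / 3 : ℝ)) with hle | hgt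
  · refine (h1 X R t hR hRX).trans ?_
    have h3 : X ^ (2 / 3 : ℝ) * T ^ 2 ≤ X * T ^ A := by
      have h4 : X ^ (2 / 3 : ℝ) * X ^ (1 / 3 : ℝ) = X := by
        rw [← Real.rpow_add hX0]; norm_num
      calc X ^ (2 / 3 : ℝ) * T ^ 2 = X ^ (2 / 3 : ℝ) * T * T := by ring
        _ ≤ X ^ (2 / 3 : ℝ) * X ^ (1 / 3 : ℝ) * T := by gcongr
        _ = X * T := by rw [h4]
        _ ≤ X * T ^ A := by
            gcongr
            calc T = T ^ (1 : ℝ) := (Real.rpow_one T).symm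
              _ ≤ T ^ A := Real.rpow_le_rpow_of_exponent_le hT1 hA
    calc C1 * X ^ ε * (X ^ (2 / 3 : ℝ) * T ^ 2) ≤ C1 * X ^ ε * (X * T ^ A) := by gcongr
      _ ≤ (C1 + C2) * X ^ ε * (X * T ^ A + X / R * T ^ B) := by
          gcongr
          · linarith
          · linarith
  · refine (h2 X R t hR hRX).trans ?_
    have h3 : X ^ (2 / 3 : ℝ) ≤ T ^ B := by
      calc X ^ (2 / 3 : ℝ) = (X ^ (1 / 3 : ℝ)) ^ 2 := by
            rw [← Real.rpow_natCast, ← Real.rpow_mul hX0.le]; norm_num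
        _ ≤ T ^ 2 := by gcongr
        _ = T ^ (2 : ℝ) := by rw [Real.rpow_ofNat]
        _ ≤ T ^ B := Real.rpow_le_rpow_of_exponent_le hT1 hB
    calc C2 * (X / R * X ^ (2 / 3 : ℝ)) ≤ C2 * (X / R * T ^ B) := by gcongr
      _ = C2 * 1 * (X / R * T ^ B) := by ring
      _ ≤ (C1 + C2) * X ^ ε * (X * T ^ A + X / R * T ^ B) := by
          gcongr
          · linarith
          · linarith

theorem wsum_sub_mul (g m : O → ℂ) (k : ℂ) (U : ℝ → ℂ) (Z X t : ℝ) (r : O) :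
    wsum (fun c => g c - k * m c) U Z X t r = wsum g U Z X t r - k * wsum m U Z X t r := by
  unfold wsum
  rw [Finset.mul_sum, ← Finset.sum_sub_distrib]
  refine Finset.sum_congr rfl fun c _ => by ring

theorem norm_add_sq_le_two (x y : ℂ) : ‖x + y‖ ^ 2 ≤ 2 * ‖x‖ ^ 2 + 2 * ‖y‖ ^ 2 := by
  have h := norm_add_le x y
  have h2 : ‖x + y‖ ^ 2 ≤ (‖x‖ + ‖y‖) ^ 2 := by gcongr
  nlinarith [sq_nonneg (‖x‖ - ‖y‖)]

/-- **Type I in mean square** for `w = g - k N^{-1/6}`, `k * kap = ρ`. -/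
theorem t1_l2 {g : O → ℂ} {ρ k : ℂ} {A B : ℝ} (hA : 1 ≤ A) (hB : 2 ≤ B)
    (hg : ∀ c, Primary c → Squarefree c → ‖g c‖ ≤ 1) (hk : k * kap = ρ) (hMS : MSq g ρ A B) :
    L2f (fun c => g c - k * mc c) A B := by
  intro U a b H ε hε
  obtain ⟨C1, hC1, h1⟩ := hMS U a b H ε hε
  obtain ⟨C2, hC2, h2⟩ := model_MSq hA hB U a b H ε hε
  obtain ⟨S, hS0, hS⟩ := exists_norm_le H
  have ha := H.pos
  have hb : 0 < b := H.pos.trans_le H.le
  -- trivial constant for `X < R ≤ b X`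
  set C3 : ℝ := 8 * b * ((1 + ‖k‖) * S * (4 * b)) ^ 2 * (max 1 (b ^ ε)) with hC3
  have hC3' : 0 ≤ C3 := by positivity
  refine ⟨2 * C1 + 2 * ‖k‖ ^ 2 * C2 + C3, by positivity, fun X R t hX0 hR => ?_⟩
  have hR0 : 0 < R := by linarith
  set T : ℝ := 1 + |t| with hT
  have hT1 : 1 ≤ T := by rw [hT]; linarith [abs_nonneg t]
  have hT0 : 0 < T := by linarith
  have hTA : 0 ≤ X * T ^ A := by positivity
  have hTB : 0 ≤ X / R * T ^ B := by positivity
  have hXε : 0 < X ^ ε := by positivity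
  rcases le_or_gt R X with hRX | hRX
  · -- main range
    have h3 : ∀ r ∈ SR R, ‖wsum (fun c => g c - k * mc c) U (b * X) X t r‖ ^ 2 ≤
        2 * ‖wsum g U (b * X) X t r - ρ * mt U X t r‖ ^ 2 +
        2 * ‖k‖ ^ 2 * ‖wsum mc U (b * X) X t r - (kap : ℂ) * mt U X t r‖ ^ 2 := by
      intro r _
      have h4 : wsum (fun c => g c - k * mc c) U (b * X) X t r =
          (wsum g U (b * X) X t r - ρ * mt U X t r) +
          (-k) * (wsum mc U (b * X) X t r - (kap : ℂ) * mt U X t r) := by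
        rw [wsum_sub_mul, ← hk]; ring
      rw [h4]
      refine (norm_add_sq_le_two _ _).trans (le_of_eq ?_)
      rw [norm_mul, norm_neg]; ring
    refine (Finset.sum_le_sum h3).trans ?_
    rw [Finset.sum_add_distrib, ← Finset.mul_sum, ← Finset.mul_sum]
    have h5 := h1 X R t hR hRX
    have h6 := h2 X R t hR hRX
    rw [← hT] at h5 h6
    have h7 : 0 ≤ X ^ ε * (X * T ^ A + X / R * T ^ B) := by positivity
    calc _ ≤ 2 * (C1 * X ^ ε * (X * T ^ A + X / R * T ^ B)) +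
          2 * ‖k‖ ^ 2 * (C2 * X ^ ε * (X * T ^ A + X / R * T ^ B)) := by gcongr
      _ = (2 * C1 + 2 * ‖k‖ ^ 2 * C2) * (X ^ ε * (X * T ^ A + X / R * T ^ B)) := by ring
      _ ≤ (2 * C1 + 2 * ‖k‖ ^ 2 * C2 + C3) * (X ^ ε * (X * T ^ A + X / R * T ^ B)) :=
          mul_le_mul_of_nonneg_right (by linarith) h7
      _ = _ := by ring
  · rcases lt_or_ge (b * X) R with hbR | hbR
    · -- empty sums
      have h3 : ∀ r ∈ SR R, ‖wsum (fun c => g c - k * mc c) U (b * X) X t r‖ ^ 2 = 0 := by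
        intro r hr
        rw [mem_SR] at hr
        have h4 : SM r (b * X) = ∅ := by
          rw [Finset.eq_empty_iff_forall_notMem]
          intro c hc
          rw [mem_SM] at hc
          have h5 : N r ≤ N c := Nat.le_of_dvd (N_pos hc.1.ne_zero) (N_dvd_N hc.2.2.1)
          have h6 : (N r : ℝ) ≤ N c := by exact_mod_cast h5
          linarith [hc.2.2.2, hr.2.2.1]
        rw [wsum, h4]; simp
      rw [Finset.sum_eq_zero h3]
      positivity
    · -- trivial bound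
      have h3 : ∀ r ∈ SR R, ‖wsum (fun c => g c - k * mc c) U (b * X) X t r‖ ^ 2 ≤
          ((1 + ‖k‖) * S * (4 * b)) ^ 2 := by
        intro r hr
        rw [mem_SR] at hr
        have hN : (0 : ℝ) < N r := by exact_mod_cast N_pos hr.1.ne_zero
        have h4 : ‖wsum (fun c => g c - k * mc c) U (b * X) X t r‖ ≤
            (1 + ‖k‖) * S * (4 * (b * X / N r)) := by
          refine norm_wsum_le H hS hX0 (fun c hc hsc _ => ?_) (by positivity) t hr.1 hr.2.1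
          refine (norm_sub_le _ _).trans ?_
          rw [norm_mul, norm_mc hc.ne_zero]
          have h5 : (N c : ℝ) ^ (-(1 / 6) : ℝ) ≤ 1 := by
            have : (1 : ℝ) ≤ N c := by exact_mod_cast N_pos hc.ne_zero
            exact Real.rpow_le_one_of_one_le_of_nonpos this (by norm_num)
          have := hg c hc hsc
          nlinarith [norm_nonneg k]
        have h5 : b * X / N r ≤ b := by
          rw [div_le_iff₀ hN]
          have : X ≤ N r := hRX.le.trans hr.2.2.1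
          gcongr
        calc ‖wsum (fun c => g c - k * mc c) U (b * X) X t r‖ ^ 2
            ≤ ((1 + ‖k‖) * S * (4 * (b * X / N r))) ^ 2 := by gcongr
          _ ≤ _ := by gcongr
      refine (Finset.sum_le_sum h3).trans ?_
      rw [Finset.sum_const, nsmul_eq_mul]
      have h6 := card_SR_le hR0.le
      have h7 : 1 ≤ (max 1 (b ^ ε)) * X ^ ε := by
        rcases le_or_gt 1 X with hX1 | hX1
        · calc (1 : ℝ) = 1 * 1 := by ring
            _ ≤ _ := mul_le_mul (le_max_left _ _) (Real.one_le_rpow hX1 hε.le) zero_le_one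
                (le_trans zero_le_one (le_max_left _ _))
        · calc (1 : ℝ) ≤ (b * X) ^ ε := Real.one_le_rpow (hR.trans hbR) hε.le
            _ = b ^ ε * X ^ ε := Real.mul_rpow hb.le hX0.le
            _ ≤ _ := by gcongr; exact le_max_right _ _
      have h8 : 1 ≤ T ^ A := Real.one_le_rpow hT1 (by linarith)
      set Q : ℝ := ((1 + ‖k‖) * S * (4 * b)) ^ 2 with hQ
      have hQ0 : 0 ≤ Q := by positivity
      calc ((SR R).card : ℝ) * Q ≤ (8 * R) * Q := by gcongr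
        _ ≤ (8 * (b * X)) * Q := by gcongr
        _ = (8 * b * Q) * X * 1 * 1 := by ring
        _ ≤ (8 * b * Q) * X * ((max 1 (b ^ ε)) * X ^ ε) * T ^ A := by gcongr
        _ = C3 * X ^ ε * (X * T ^ A) := by rw [hC3]; ring
        _ ≤ (2 * C1 + 2 * ‖k‖ ^ 2 * C2 + C3) * X ^ ε * (X * T ^ A + X / R * T ^ B) := by
            gcongr
            · have : 0 ≤ 2 * C1 + 2 * ‖k‖ ^ 2 * C2 := by positivity
              linarith
            · linarith

end Vale.Agent.P006.TI
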