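import Vale.Agent.P006.TI.V23c

/-!
P006, block V23: `DISP.V23Hyp` from the mean square Type I estimate.
-/

namespace Vale.Agent.P006.TI

open Vale.Agent.P006 MeasureTheory Set Filter
open Vale.Agent.P006.KER (Nice)
open Vale.Agent.P006.DISP (Bump Vx T23)
open Vale.Agent.P006.H570 (PO)
open scoped ContDiff Topology Classical

/-- the squarefree primary divisors -/
noncomputable def sdv (c : O) : Finset O := (PO.divs c).filter Squarefree

theorem mem_sdv {c d : O} (hc : Primary c) : d ∈ sdv c ↔ (Primary d ∧ d ∣ c) ∧ Squarefree d := by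
  rw [sdv, Finset.mem_filter, mem_divs hc]

theorem card_sdv_le {c : O} (hc : Primary c) : (sdv c).card ≤ tau c := by
  unfold tau
  apply Finset.card_le_card
  intro d hd
  rw [mem_sdv hc] at hd
  rw [mem_dvs hc.ne_zero]
  exact hd.1

theorem sum_coprime_eq {s : Finset O} (hs : ∀ b ∈ s, Primary b) {D : O} (hD : Primary D)
    (F : O → ℂ) : ∑ b ∈ s, (if IsCoprime b D then F b else 0) =
      ∑ d ∈ sdv D, (mu d : ℂ) * ∑ b ∈ s.filter (fun b => d ∣ b), F b := by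
  have h1 : ∀ b ∈ s, (if IsCoprime b D then F b else 0) =
      ∑ d ∈ sdv D, if d ∣ b then (mu d : ℂ) * F b else 0 := by
    intro b hb
    have h2 := sum_mu_common hD (hs b hb)
    have h3 : ∑ d ∈ sdv D, (if d ∣ b then (mu d : ℂ) * F b else 0) =
        ((∑ e ∈ (PO.divs D).filter (fun e => e ∣ b), mu e : ℤ) : ℂ) * F b := by
      push_cast
      rw [Finset.sum_mul, Finset.sum_filter, sdv, Finset.sum_filter]
      refine Finset.sum_congr rfl fun d _ => ?_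
      by_cases hsq : Squarefree d
      · rw [if_pos hsq]
      · rw [if_neg hsq, mu_of_not_squarefree hsq]; simp
    rw [h3, h2]
    split_ifs <;> simp
  rw [Finset.sum_congr rfl h1, Finset.sum_comm]
  refine Finset.sum_congr rfl fun d _ => ?_
  rw [Finset.mul_sum, Finset.sum_filter]

theorem norm_T23_le (V0 : ℝ → ℝ) (ξ u0 B : ℝ) {W a1 a2 : O} (hW : Primary W)
    (ha2 : Primary a2) :
    ‖T23 (Vx V0 ξ u0) B W a1 a2‖ ≤
      ∑ m ∈ PB (4 * B), ∑ d ∈ sdv (W * a2), ‖Sf V0 ξ u0 B a1 m d‖ := by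
  unfold T23
  refine norm_sum_le_of_le _ fun m hm => ?_
  by_cases hcop : IsCoprime m (W * a2) ∧ IsCoprime m a1
  · have h1 : ∑ b ∈ SPB (4 * B), (if IsCoprime (b * m) (W * a2) ∧ IsCoprime m a1 then
        ((Vx V0 ξ u0 (N b * (N m : ℝ) ^ 3 / B) * (N b : ℝ) ^ (-(1 / 6) : ℝ) : ℝ) : ℂ) *
          wf (a1 * b) else 0) =
        ∑ b ∈ SPB (4 * B), (if IsCoprime b (W * a2) then
        ((Vx V0 ξ u0 (N b * (N m : ℝ) ^ 3 / B) * (N b : ℝ) ^ (-(1 / 6) : ℝ) : ℝ) : ℂ) *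
          wf (a1 * b) else 0) := by
      refine Finset.sum_congr rfl fun b _ => ?_
      have h2 : (IsCoprime (b * m) (W * a2) ∧ IsCoprime m a1) ↔ IsCoprime b (W * a2) := by
        rw [IsCoprime.mul_left_iff]
        exact ⟨fun h => h.1.1, fun h => ⟨⟨h, hcop.1⟩, hcop.2⟩⟩
      simp only [h2]
    rw [h1, sum_coprime_eq (fun b hb => (mem_SPB.1 hb).1.1) (hW.mul ha2)]
    refine norm_sum_le_of_le _ fun d _ => ?_
    rw [norm_mul]
    have h3 : ‖((mu d : ℤ) : ℂ)‖ ≤ 1 := by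
      rw [Complex.norm_intCast]
      exact abs_mu_cast_le d
    calc _ ≤ 1 * ‖Sf V0 ξ u0 B a1 m d‖ := by
          apply mul_le_mul h3 (le_of_eq rfl) (norm_nonneg _) zero_le_one
      _ = _ := one_mul _
  · have h1 : ∑ b ∈ SPB (4 * B), (if IsCoprime (b * m) (W * a2) ∧ IsCoprime m a1 then
        ((Vx V0 ξ u0 (N b * (N m : ℝ) ^ 3 / B) * (N b : ℝ) ^ (-(1 / 6) : ℝ) : ℝ) : ℂ) *
          wf (a1 * b) else 0) = 0 := by
      refine Finset.sum_eq_zero fun b _ => ?_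
      rw [if_neg]
      rintro ⟨h2, h3⟩
      exact hcop ⟨h2.of_mul_left_right, h3⟩
    rw [h1, norm_zero]
    exact Finset.sum_nonneg fun _ _ => norm_nonneg _

/-- dyadic covering of `SPB D` -/
theorem SPB_subset_biUnion {D : ℝ} : SPB D ⊆
    ((Finset.range (⌊Real.log D / Real.log 2⌋₊ + 1)).filter (fun j => (2 : ℝ) ^ j ≤ D)).biUnion
      (fun j => SR ((2 : ℝ) ^ j)) := by
  intro r hr
  rw [mem_SPB] at hr
  obtain ⟨j, hj1, hj2, hj3⟩ := dyadic_cover hr.1.1 hr.2 hr.1.2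
  rw [Finset.mem_biUnion]
  refine ⟨j, ?_, hj3⟩
  rw [Finset.mem_filter, Finset.mem_range, Nat.lt_succ_iff]
  exact ⟨Nat.le_floor hj1, hj2⟩

/-- **V23**: `DISP.V23Hyp` from the mean square Type I estimate for `wf`. -/
theorem v23Hyp {A0 B0 : ℝ} (hL : L2f wf A0 B0) : DISP.V23Hyp := by
  intro V0 hb W hW ε hε
  set η : ℝ := ε / 3 with hη
  have hη0 : 0 < η := by positivity
  obtain ⟨C1, k, hC1, h1⟩ := sum_Sf_le hb hL hη0
  obtain ⟨Ct, hCt1, hCt⟩ := exists_tau_le hη0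
  have hlog2 : 0 < Real.log 2 := Real.log_pos (by norm_num)
  set p : ℝ := 1 / 3 + η / 2 with hp
  have hp0 : 0 < p := by positivity
  have hsum := HB.summable_N_rpow (s := 3 * p) (by rw [hp]; linarith)
  have hZS := ZS_nonneg (3 * p)
  set CJ : ℝ := 1 + (1 / η / Real.log 2) with hCJ
  have hCJ0 : 0 ≤ CJ := by positivity
  set CW : ℝ := Ct * (N W : ℝ) ^ η with hCW
  have hCW0 : 0 ≤ CW := by positivity
  refine ⟨ZS (3 * p) * (CW * (CJ * (C1 * (2 : ℝ) ^ (1 + η / 2 + η + η)))), k,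
    by positivity, by positivity, fun ξ u0 A B hξ0 hξ1 hu1 hu2 hA hB => ?_⟩
  have hA0 : 0 < A := by linarith
  have hB0 : 0 < B := by linarith
  have h2A : 1 ≤ 2 * A := by linarith
  have h2A0 : 0 < 2 * A := by linarith
  set D : ℝ := 2 * A with hD
  -- bound for fixed `m`, `d`
  set Q : ℝ := C1 * ξ ^ (-(k : ℝ)) * (D ^ (2 / 3 : ℝ) * (D * B) ^ p) with hQ
  have hQ0 : 0 ≤ Q := by positivity
  have hJ : ((⌊Real.log D / Real.log 2⌋₊ + 1 : ℕ) : ℝ) ≤ CJ * D ^ η := by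
    have h3 : (⌊Real.log D / Real.log 2⌋₊ : ℝ) ≤ Real.log D / Real.log 2 :=
      Nat.floor_le (div_nonneg (Real.log_nonneg h2A) hlog2.le)
    have h4 : Real.log D ≤ D ^ η / η := Real.log_le_rpow_div h2A0.le hη0
    have h5 : 1 ≤ D ^ η := Real.one_le_rpow h2A hη0.le
    push_cast
    calc (⌊Real.log D / Real.log 2⌋₊ : ℝ) + 1 ≤ Real.log D / Real.log 2 + 1 := by gcongr
      _ ≤ (D ^ η / η) / Real.log 2 + D ^ η := by gcongr
      _ = _ := by rw [hCJ]; field_simp; ring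
  have hblock : ∀ m d : O, Primary m → Primary d → Squarefree d →
      ∑ a1 ∈ SPB D, ‖Sf V0 ξ u0 B a1 m d‖ ≤ (CJ * D ^ η) * (Q * (N m : ℝ) ^ (-(3 * p))) := by
    intro m d hm hd hds
    have hNm : (0 : ℝ) < N m := by exact_mod_cast N_pos hm.ne_zero
    refine (Finset.sum_le_sum_of_subset_of_nonneg SPB_subset_biUnion
      fun _ _ _ => norm_nonneg _).trans ?_
    refine (sum_biUnion_le _ _ fun _ => norm_nonneg _).trans ?_
    have h3 : ∀ j ∈ (Finset.range (⌊Real.log D / Real.log 2⌋₊ + 1)).filter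
        (fun j => (2 : ℝ) ^ j ≤ D), ∑ a ∈ SR ((2 : ℝ) ^ j), ‖Sf V0 ξ u0 B a m d‖ ≤
          Q * (N m : ℝ) ^ (-(3 * p)) := by
      intro j hj
      rw [Finset.mem_filter] at hj
      have h2j : (1 : ℝ) ≤ 2 ^ j := one_le_pow₀ (by norm_num)
      refine (h1 ξ u0 B _ hξ0 hξ1 hu1 hu2 h2j hB m d hm hd hds).trans ?_
      have h4 : ((2 : ℝ) ^ j * B / (N m : ℝ) ^ 3) ^ p ≤ (D * B) ^ p * (N m : ℝ) ^ (-(3 * p)) := by
        rw [Real.div_rpow (by positivity) (by positivity), Real.rpow_neg hNm.le,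
          ← Real.rpow_natCast (N m : ℝ) 3, ← Real.rpow_mul hNm.le, div_eq_mul_inv]
        push_cast
        gcongr
        exact hj.2
      calc C1 * ξ ^ (-(k : ℝ)) * (((2 : ℝ) ^ j) ^ (2 / 3 : ℝ) *
            ((2 : ℝ) ^ j * B / (N m : ℝ) ^ 3) ^ (1 / 3 + η / 2))
          ≤ C1 * ξ ^ (-(k : ℝ)) * (D ^ (2 / 3 : ℝ) *
            ((D * B) ^ p * (N m : ℝ) ^ (-(3 * p)))) := by
            apply mul_le_mul_of_nonneg_left _ (by positivity)
            apply mul_le_mul _ h4 (by positivity) (by positivity)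
            exact Real.rpow_le_rpow (by positivity) hj.2 (by norm_num)
        _ = _ := by rw [hQ]; ring
    refine (Finset.sum_le_sum h3).trans ?_
    rw [Finset.sum_const, nsmul_eq_mul]
    have h5 : ((((Finset.range (⌊Real.log D / Real.log 2⌋₊ + 1)).filter
        (fun j => (2 : ℝ) ^ j ≤ D)).card : ℕ) : ℝ) ≤ CJ * D ^ η := by
      refine le_trans ?_ hJ
      have := Finset.card_filter_le (Finset.range (⌊Real.log D / Real.log 2⌋₊ + 1))
        (fun j => (2 : ℝ) ^ j ≤ D)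
      rw [Finset.card_range] at this
      exact_mod_cast this
    gcongr
  -- sum over `m`, `d`, `a2`
  have hmain : ∀ a2 ∈ SPB D, ∑ a1 ∈ SPB D, ‖T23 (Vx V0 ξ u0) B W a1 a2‖ ≤
      ZS (3 * p) * (CW * D ^ η * ((CJ * D ^ η) * Q)) := by
    intro a2 ha2
    rw [mem_SPB] at ha2
    have hWa : Primary (W * a2) := hW.1.mul ha2.1.1
    have h3 : ∑ a1 ∈ SPB D, ‖T23 (Vx V0 ξ u0) B W a1 a2‖ ≤
        ∑ m ∈ PB (4 * B), ∑ d ∈ sdv (W * a2), ∑ a1 ∈ SPB D, ‖Sf V0 ξ u0 B a1 m d‖ := by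
      calc _ ≤ ∑ a1 ∈ SPB D, ∑ m ∈ PB (4 * B), ∑ d ∈ sdv (W * a2), ‖Sf V0 ξ u0 B a1 m d‖ :=
            Finset.sum_le_sum fun a1 _ => norm_T23_le V0 ξ u0 B hW.1 ha2.1.1
        _ = ∑ m ∈ PB (4 * B), ∑ a1 ∈ SPB D, ∑ d ∈ sdv (W * a2), ‖Sf V0 ξ u0 B a1 m d‖ :=
            Finset.sum_comm
        _ = _ := Finset.sum_congr rfl fun m _ => Finset.sum_comm
    have h4 : ((sdv (W * a2)).card : ℝ) ≤ CW * D ^ η := by
      have h5 : ((sdv (W * a2)).card : ℝ) ≤ tau (W * a2) := by exact_mod_cast card_sdv_le hWa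
      refine h5.trans ((hCt _ hWa).trans ?_)
      rw [N_mul, Nat.cast_mul, Real.mul_rpow (by positivity) (by positivity), hCW, mul_assoc]
      have : (N a2 : ℝ) ^ η ≤ D ^ η := Real.rpow_le_rpow (by positivity) ha2.1.2 hη0.le
      gcongr
    have h5 : ∀ m ∈ PB (4 * B), ∑ d ∈ sdv (W * a2), ∑ a1 ∈ SPB D, ‖Sf V0 ξ u0 B a1 m d‖ ≤
        (CW * D ^ η * ((CJ * D ^ η) * Q)) * (N m : ℝ) ^ (-(3 * p)) := by
      intro m hm
      rw [mem_PB] at hm
      have h6 : ∀ d ∈ sdv (W * a2), ∑ a1 ∈ SPB D, ‖Sf V0 ξ u0 B a1 m d‖ ≤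
          (CJ * D ^ η) * (Q * (N m : ℝ) ^ (-(3 * p))) := by
        intro d hd
        rw [mem_sdv hWa] at hd
        exact hblock m d hm.1 hd.1.1 hd.2
      refine (Finset.sum_le_sum h6).trans ?_
      rw [Finset.sum_const, nsmul_eq_mul]
      calc ((sdv (W * a2)).card : ℝ) * ((CJ * D ^ η) * (Q * (N m : ℝ) ^ (-(3 * p))))
          ≤ (CW * D ^ η) * ((CJ * D ^ η) * (Q * (N m : ℝ) ^ (-(3 * p)))) := by gcongr
        _ = _ := by ring
    refine h3.trans ((Finset.sum_le_sum h5).trans ?_)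
    rw [← Finset.mul_sum, mul_comm]
    apply mul_le_mul_of_nonneg_right _ (by positivity)
    exact hsum.sum_le_tsum _ fun _ _ => by positivity
  intro a2 ha2
  have h2 : ∑ a1 ∈ (SPB D).filter (fun a => A < (N a : ℝ)), ‖T23 (Vx V0 ξ u0) B W a1 a2‖ ≤
      ∑ a1 ∈ SPB D, ‖T23 (Vx V0 ξ u0) B W a1 a2‖ :=
    Finset.sum_le_sum_of_subset_of_nonneg (Finset.filter_subset _ _) fun _ _ _ => norm_nonneg _
  refine h2.trans ((hmain a2 ha2).trans ?_)
  have hexp : D ^ η * (D ^ η * (D ^ (2 / 3 : ℝ) * (D * B) ^ p)) =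
      (2 : ℝ) ^ (1 + η / 2 + η + η) * (A ^ (1 + η / 2 + η + η) * B ^ p) := by
    rw [Real.mul_rpow h2A0.le hB0.le]
    have e1 : D ^ η * (D ^ η * (D ^ (2 / 3 : ℝ) * D ^ p)) = D ^ (1 + η / 2 + η + η) := by
      rw [← Real.rpow_add h2A0, ← Real.rpow_add h2A0, ← Real.rpow_add h2A0]
      congr 1; rw [hp]; ring
    have e2 : D ^ (1 + η / 2 + η + η) = (2 : ℝ) ^ (1 + η / 2 + η + η) *
        A ^ (1 + η / 2 + η + η) := by
      rw [hD, Real.mul_rpow (by norm_num) hA0.le]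
    rw [← mul_assoc ((2 : ℝ) ^ _), ← e2, ← e1]; ring
  have hfin : A ^ (1 + η / 2 + η + η) * B ^ p ≤ (A * B) ^ ε * (A * B ^ (1 / 3 : ℝ)) := by
    have e1 : A ^ (1 + η / 2 + η + η) = A * A ^ (η / 2 + η + η) := by
      rw [show 1 + η / 2 + η + η = 1 + (η / 2 + η + η) by ring, Real.rpow_add hA0, Real.rpow_one]
    have e2 : B ^ p = B ^ (1 / 3 : ℝ) * B ^ (η / 2) := by
      rw [← Real.rpow_add hB0]
    have e3 : A ^ (η / 2 + η + η) ≤ A ^ ε :=
      Real.rpow_le_rpow_of_exponent_le hA (by rw [hη]; linarith)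
    have e4 : B ^ (η / 2) ≤ B ^ ε :=
      Real.rpow_le_rpow_of_exponent_le hB (by rw [hη]; linarith)
    rw [e1, e2, Real.mul_rpow hA0.le hB0.le]
    calc A * A ^ (η / 2 + η + η) * (B ^ (1 / 3 : ℝ) * B ^ (η / 2))
        = (A * B ^ (1 / 3 : ℝ)) * (A ^ (η / 2 + η + η) * B ^ (η / 2)) := by ring
      _ ≤ (A * B ^ (1 / 3 : ℝ)) * (A ^ ε * B ^ ε) := by gcongr
      _ = _ := by ring
  calc ZS (3 * p) * (CW * D ^ η * ((CJ * D ^ η) * Q))
      = ZS (3 * p) * (CW * (CJ * C1)) * ξ ^ (-(k : ℝ)) *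
        (D ^ η * (D ^ η * (D ^ (2 / 3 : ℝ) * (D * B) ^ p))) := by rw [hQ]; ring
    _ = ZS (3 * p) * (CW * (CJ * (C1 * (2 : ℝ) ^ (1 + η / 2 + η + η)))) *
        ξ ^ (-(k : ℝ)) * (A ^ (1 + η / 2 + η + η) * B ^ p) := by rw [hexp]; ring
    _ ≤ ZS (3 * p) * (CW * (CJ * (C1 * (2 : ℝ) ^ (1 + η / 2 + η + η)))) *
        ξ ^ (-(k : ℝ)) * ((A * B) ^ ε * (A * B ^ (1 / 3 : ℝ))) := by gcongr
    _ = _ := by ring

/-- **V23** from the mean square estimate for the Gauss sums (TI-1 + CONST) -/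
theorem v23Hyp_of_MSq {A B : ℝ} (hA : 1 ≤ A) (hB : 2 ≤ B)
    (h : MSq (gt 1) (((cStar * kap : ℝ)) : ℂ) A B) : DISP.V23Hyp :=
  v23Hyp (L2f_wf hA hB h)

end Vale.Agent.P006.TI
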