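import Vale.Agent.P006.TI.T1
import Vale.Agent.P006.TI.Zeta2
import Vale.Agent.P006.H611.T1S
import Vale.Agent.P006.Main.Defs

/-!
P006, block TI: from the mean square Type I estimate (`L2f`) to the `L¹` form `H611.T1Hyp`.
-/

namespace Vale.Agent.P006.TI

open Vale.Agent.P006 MeasureTheory Set Filter
open Vale.Agent.P006.KER (Nice)
open scoped ContDiff Topology Classical

theorem sqrt_add_le {x y : ℝ} (hx : 0 ≤ x) (hy : 0 ≤ y) : √(x + y) ≤ √x + √y := by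
  rw [Real.sqrt_le_left (by positivity)]
  have h1 := Real.sq_sqrt hx
  have h2 := Real.sq_sqrt hy
  nlinarith [mul_nonneg (Real.sqrt_nonneg x) (Real.sqrt_nonneg y)]

theorem sum_biUnion_le {ι : Type*} (s : Finset ι) (f : ι → Finset O) {g : O → ℝ}
    (hg : ∀ x, 0 ≤ g x) : ∑ x ∈ s.biUnion f, g x ≤ ∑ i ∈ s, ∑ x ∈ f i, g x := by
  induction s using Finset.induction_on with
  | empty => simp
  | insert a s ha ih =>
    rw [Finset.biUnion_insert, Finset.sum_insert ha]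
    have h1 := Finset.sum_union_inter (s₁ := f a) (s₂ := s.biUnion f) (f := g)
    have h2 : 0 ≤ ∑ x ∈ f a ∩ s.biUnion f, g x := Finset.sum_nonneg fun x _ => hg x
    linarith

theorem sum_SR_le {w : O → ℂ} {A B : ℝ} {U : ℝ → ℂ} {b C ε : ℝ} (hC : 0 ≤ C)
    (h : ∀ X R t : ℝ, 0 < X → 1 ≤ R →
      ∑ r ∈ SR R, ‖wsum w U (b * X) X t r‖ ^ 2 ≤
        C * X ^ ε * (X * (1 + |t|) ^ A + X / R * (1 + |t|) ^ B))
    {X R : ℝ} (hX : 0 < X) (hR : 1 ≤ R) (t : ℝ) :
    ∑ r ∈ SR R, ‖wsum w U (b * X) X t r‖ ≤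
      √(8 * C) * (X ^ (ε / 2) * ((X * R) ^ (1 / 2 : ℝ) * (1 + |t|) ^ (A / 2) +
        X ^ (1 / 2 : ℝ) * (1 + |t|) ^ (B / 2))) := by
  have hR0 : 0 < R := by linarith
  have hT : 0 < 1 + |t| := by positivity
  have h1 := sq_sum_le_card_mul_sum_sq (s := SR R) (f := fun r => ‖wsum w U (b * X) X t r‖)
  have h2 := card_SR_le hR0.le
  have h3 := h X R t hX hR
  have h4 : ∑ r ∈ SR R, ‖wsum w U (b * X) X t r‖ ≤
      √((8 * C) * (X ^ ε * (X * R * (1 + |t|) ^ A + X * (1 + |t|) ^ B))) := by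
    apply Real.le_sqrt_of_sq_le
    refine h1.trans ?_
    have h5 : 0 ≤ ∑ r ∈ SR R, ‖wsum w U (b * X) X t r‖ ^ 2 :=
      Finset.sum_nonneg fun r _ => by positivity
    calc ((SR R).card : ℝ) * ∑ r ∈ SR R, ‖wsum w U (b * X) X t r‖ ^ 2
        ≤ (8 * R) * (C * X ^ ε * (X * (1 + |t|) ^ A + X / R * (1 + |t|) ^ B)) := by gcongr
      _ = _ := by field_simp
  refine h4.trans ?_
  rw [Real.sqrt_mul (show (0 : ℝ) ≤ 8 * C by positivity),
    Real.sqrt_mul (show (0 : ℝ) ≤ X ^ ε by positivity)]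
  have e1 : √(X ^ ε) = X ^ (ε / 2) := by
    rw [Real.sqrt_eq_rpow, ← Real.rpow_mul hX.le]; congr 1; ring
  rw [e1]
  have e2 : √(X * R * (1 + |t|) ^ A + X * (1 + |t|) ^ B) ≤
      (X * R) ^ (1 / 2 : ℝ) * (1 + |t|) ^ (A / 2) + X ^ (1 / 2 : ℝ) * (1 + |t|) ^ (B / 2) := by
    refine (sqrt_add_le (by positivity) (by positivity)).trans ?_
    apply le_of_eq
    rw [Real.sqrt_mul (by positivity), Real.sqrt_mul (by positivity) ((1 + |t|) ^ B)]
    simp only [Real.sqrt_eq_rpow]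
    rw [← Real.rpow_mul hT.le, ← Real.rpow_mul hT.le]
    congr 3 <;> ring
  gcongr

theorem nice_Udy : Nice (fun x => (H611.Udy x : ℂ)) (1 / 2) 2 where
  smooth := Complex.ofRealCLM.contDiff.comp H611.contDiff_Udy
  pos := by norm_num
  le := by norm_num
  supp := by
    intro x hx
    by_contra hcon
    apply hx
    have h : H611.Udy x ≠ 0 := fun h => hcon (by simp [h])
    exact H611.Udy_supp h

/-- dyadic covering of the squarefree primary elements of norm at most `D` -/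
theorem dyadic_cover {D : ℝ} {r : O} (h3 : Primary r) (h4 : Squarefree r)
    (h2 : (N r : ℝ) ≤ D) : ∃ j : ℕ, (j : ℝ) ≤ Real.log D / Real.log 2 ∧ (2 : ℝ) ^ j ≤ D ∧
      r ∈ SR ((2 : ℝ) ^ j) := by
  have hlog2 : 0 < Real.log 2 := Real.log_pos (by norm_num)
  have hN : 0 < N r := N_pos h3.ne_zero
  have hN' : (0 : ℝ) < N r := by exact_mod_cast hN
  have h5 : (2 : ℝ) ^ (Nat.log 2 (N r)) ≤ N r := by
    have h5 := Nat.pow_log_le_self 2 hN.ne'
    exact_mod_cast h5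
  refine ⟨Nat.log 2 (N r), ?_, h5.trans h2, ?_⟩
  · rw [le_div_iff₀ hlog2, ← Real.log_rpow (by norm_num)]
    apply Real.log_le_log (by positivity)
    rw [Real.rpow_natCast]
    exact h5.trans h2
  · rw [mem_SR]
    refine ⟨h3, h4, h5, ?_⟩
    have h6 := (Nat.lt_pow_succ_log_self (b := 2) (by norm_num) (N r)).le
    rw [pow_succ, mul_comm] at h6
    exact_mod_cast h6

theorem T1Hyp_of_L2f {w : O → ℂ} {A B : ℝ} (hA : A ≤ 9 / 5) (hB : B ≤ 19 / 5)
    (h : L2f w A B) : H611.T1Hyp InP w := by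
  intro ε hε
  obtain ⟨C, hC, h1⟩ := h _ _ _ nice_Udy ε hε
  have hlog2 : 0 < Real.log 2 := Real.log_pos (by norm_num)
  refine ⟨(1 + 2 / ε / Real.log 2) * √(8 * C), by positivity, fun X D t hD hDX => ?_⟩
  have hX : 1 ≤ X := hD.trans hDX
  have hX0 : 0 < X := by linarith
  have hT1 : 1 ≤ 1 + |t| := by linarith [abs_nonneg t]
  set U : ℝ → ℂ := fun x => (H611.Udy x : ℂ) with hU
  -- identify the inner sums
  have e1 : ∀ (r : O) (inst : DecidablePred fun c => InP c ∧ r ∣ c),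
      ∑ c ∈ @Finset.filter O (fun c => InP c ∧ r ∣ c) inst (H570.nb (2 * X)),
      w c * H611.Udy (N c / X) * Complex.exp ((t : ℂ) * Complex.I * (Real.log (N c) : ℝ)) =
      wsum w U (2 * X) X t r := by
    intro r inst
    unfold wsum
    refine Finset.sum_congr ?_ fun c hc => ?_
    · ext c
      rw [Finset.mem_filter, H570.mem_nb (by linarith), mem_SM, InP]; tauto
    · rw [mem_SM] at hc
      have hN : (N c : ℂ) ≠ 0 := by exact_mod_cast (N_pos hc.1.ne_zero).ne'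
      rw [Complex.cpow_def_of_ne_zero hN, Complex.natCast_log, hU, mul_comm (Complex.log _)]
      ring
  simp only [e1]
  -- dyadic decomposition
  set J : ℕ := ⌊Real.log D / Real.log 2⌋₊ with hJ
  have hcover : ∀ (inst : DecidablePred InP), @Finset.filter O InP inst (H570.nb D) ⊆
      ((Finset.range (J + 1)).filter (fun j => (2 : ℝ) ^ j ≤ D)).biUnion
        (fun j => SR ((2 : ℝ) ^ j)) := by
    intro inst r hr
    rw [Finset.mem_filter, H570.mem_nb (by linarith)] at hr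
    obtain ⟨j, hj1, hj2, hj3⟩ := dyadic_cover hr.2.1 hr.2.2 hr.1
    rw [Finset.mem_biUnion]
    refine ⟨j, ?_, hj3⟩
    rw [Finset.mem_filter, Finset.mem_range, Nat.lt_succ_iff, hJ]
    exact ⟨Nat.le_floor hj1, hj2⟩
  refine (Finset.sum_le_sum_of_subset_of_nonneg (hcover _) fun _ _ _ => norm_nonneg _).trans ?_
  refine (sum_biUnion_le _ _ fun _ => norm_nonneg _).trans ?_
  set Q : ℝ := √(8 * C) * (X ^ (ε / 2) * ((X * D) ^ (1 / 2 : ℝ) * (1 + |t|) ^ (9 / 10 : ℝ) +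
        X ^ (1 / 2 : ℝ) * (1 + |t|) ^ (19 / 10 : ℝ))) with hQ
  have h3 : ∀ j ∈ (Finset.range (J + 1)).filter (fun j => (2 : ℝ) ^ j ≤ D),
      ∑ r ∈ SR ((2 : ℝ) ^ j), ‖wsum w U (2 * X) X t r‖ ≤ Q := by
    intro j hj
    rw [Finset.mem_filter] at hj
    refine (sum_SR_le hC h1 hX0 (one_le_pow₀ (by norm_num)) t).trans ?_
    rw [hQ]
    have hTA : (1 + |t|) ^ (A / 2) ≤ (1 + |t|) ^ (9 / 10 : ℝ) :=
      Real.rpow_le_rpow_of_exponent_le hT1 (by linarith)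
    have hTB : (1 + |t|) ^ (B / 2) ≤ (1 + |t|) ^ (19 / 10 : ℝ) :=
      Real.rpow_le_rpow_of_exponent_le hT1 (by linarith)
    have hXD : (X * 2 ^ j) ^ (1 / 2 : ℝ) ≤ (X * D) ^ (1 / 2 : ℝ) :=
      Real.rpow_le_rpow (by positivity) (mul_le_mul_of_nonneg_left hj.2 hX0.le) (by norm_num)
    refine mul_le_mul_of_nonneg_left (mul_le_mul_of_nonneg_left (add_le_add ?_ ?_)
      (by positivity)) (by positivity)
    · exact mul_le_mul hXD hTA (by positivity) (by positivity)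
    · exact mul_le_mul_of_nonneg_left hTB (by positivity)
  have h4 := Finset.sum_le_sum h3
  rw [Finset.sum_const, nsmul_eq_mul] at h4
  refine h4.trans ?_
  have hQ0 : 0 ≤ Q := by positivity
  have h5 : ((((Finset.range (J + 1)).filter (fun j => (2 : ℝ) ^ j ≤ D)).card : ℕ) : ℝ) ≤
      J + 1 := by
    have := Finset.card_filter_le (Finset.range (J + 1)) (fun j => (2 : ℝ) ^ j ≤ D)
    rw [Finset.card_range] at this
    exact_mod_cast this
  have h6 : (J : ℝ) ≤ 2 / ε / Real.log 2 * X ^ (ε / 2) := by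
    have h7 : (J : ℝ) ≤ Real.log D / Real.log 2 :=
      Nat.floor_le (div_nonneg (Real.log_nonneg hD) hlog2.le)
    have h8 : Real.log D ≤ X ^ (ε / 2) / (ε / 2) :=
      (Real.log_le_log (by linarith) hDX).trans (Real.log_le_rpow_div hX0.le (by positivity))
    calc (J : ℝ) ≤ Real.log D / Real.log 2 := h7
      _ ≤ (X ^ (ε / 2) / (ε / 2)) / Real.log 2 := by gcongr
      _ = _ := by field_simp
  have h9 : 1 ≤ X ^ (ε / 2) := Real.one_le_rpow hX (by positivity)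
  have h10 : X ^ (ε / 2) * X ^ (ε / 2) = X ^ ε := by
    rw [← Real.rpow_add hX0]; congr 1; ring
  calc _ ≤ ((J : ℝ) + 1) * Q := mul_le_mul_of_nonneg_right h5 hQ0
    _ ≤ ((1 + 2 / ε / Real.log 2) * X ^ (ε / 2)) * Q := by
        gcongr
        linarith
    _ = (1 + 2 / ε / Real.log 2) * √(8 * C) * (X ^ (ε / 2) * X ^ (ε / 2)) *
        ((X * D) ^ (1 / 2 : ℝ) * (1 + |t|) ^ (9 / 10 : ℝ) +
        X ^ (1 / 2 : ℝ) * (1 + |t|) ^ (19 / 10 : ℝ)) := by rw [hQ]; ring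
    _ = _ := by rw [h10]

theorem wsum_congr {w w' : O → ℂ} (h : ∀ c, InP c → w c = w' c) (U : ℝ → ℂ) (Z X t : ℝ) (r : O) :
    wsum w U Z X t r = wsum w' U Z X t r := by
  unfold wsum
  refine Finset.sum_congr rfl fun c hc => ?_
  rw [mem_SM] at hc
  rw [h c ⟨hc.1, hc.2.1⟩]

theorem L2f.congr {w w' : O → ℂ} (h : ∀ c, InP c → w c = w' c) {A B : ℝ} (hw : L2f w A B) :
    L2f w' A B := by
  intro U a b H ε hε
  obtain ⟨C, hC, h1⟩ := hw U a b H ε hε
  refine ⟨C, hC, fun X R t hX hR => ?_⟩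
  simp only [← wsum_congr h]
  exact h1 X R t hX hR

theorem norm_gt_one_le_of_InP {c : O} (h1 : Primary c) (h2 : Squarefree c) : ‖gt 1 c‖ ≤ 1 :=
  (norm_gt_one (c := c) ⟨h1, h2⟩).le

/-- the mean square Type I estimate for `wf` -/
theorem L2f_wf {A B : ℝ} (hA : 1 ≤ A) (hB : 2 ≤ B)
    (h : MSq (gt 1) (((cStar * kap : ℝ)) : ℂ) A B) : L2f wf A B := by
  have h1 : L2f (fun c => gt 1 c - (cStar : ℂ) * mc c) A B :=
    t1_l2 hA hB (fun c h1 h2 => norm_gt_one_le_of_InP h1 h2) (by push_cast; rfl) h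
  refine h1.congr fun c hc => ?_
  rw [wf_of hc, mc, Complex.ofReal_mul, Complex.ofReal_cpow (by positivity)]
  push_cast
  rfl

/-- the `L¹` Type I estimate for `wf` -/
theorem T1Hyp_wf {A B : ℝ} (hA : 1 ≤ A) (hB : 2 ≤ B) (hA' : A ≤ 9 / 5) (hB' : B ≤ 19 / 5)
    (h : MSq (gt 1) (((cStar * kap : ℝ)) : ℂ) A B) : H611.T1Hyp InP wf :=
  T1Hyp_of_L2f hA' hB' (L2f_wf hA hB h)

end Vale.Agent.P006.TI
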