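import Vale.Agent.P006.TI.Model
import Vale.Agent.P006.V1.Mellin
import Vale.Agent.P006.KER.Twist

/-!
P006, block TI/V23: Mellin transforms of smooth functions supported in a compact subset of
`(0,∞)`: decay and inversion.
-/

namespace Vale.Agent.P006.TI

open Vale.Agent.P006 MeasureTheory Set Filter
open Vale.Agent.P006.KER (Nice)
open scoped ContDiff Topology SchwartzMap

section
variable {U : ℝ → ℂ} {a b : ℝ}

theorem mellin_eq_Gw (U : ℝ → ℂ) (s : ℂ) : mellin U s = ∫ y : ℝ in Ioi 0, Gw U (s - 1) y := by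
  unfold mellin Gw
  simp only [smul_eq_mul]

/-- `s M U(s) = - M U'(s+1)` -/
theorem mul_mellin_eq (H : Nice U a b) (s : ℂ) :
    s * mellin U s = - mellin (deriv U) (s + 1) := by
  have h3 : ∫ y : ℝ in Ioi 0, Gd U s y = 0 - Gw U s 0 := by
    refine integral_Ioi_of_hasDerivAt_of_tendsto (f := Gw U s) ?_
      (fun x hx => hasDerivAt_Gw H s hx) (integrable_Gd H s).integrableOn ?_
    · exact (continuous_Gw H s).continuousWithinAt
    · refine tendsto_const_nhds.congr' ?_
      filter_upwards [Ioi_mem_atTop b] with z hz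
      exact (Gw_zero_right H s hz).symm
  rw [Gw_zero_left H s H.pos, sub_zero] at h3
  have e1 : ∫ y : ℝ in Ioi 0, Gd U s y = s * mellin U s + mellin (deriv U) (s + 1) := by
    rw [mellin_eq_Gw, mellin_eq_Gw, add_sub_cancel_right, ← integral_const_mul,
      ← integral_add]
    · refine integral_congr_ae (ae_of_all _ fun y => ?_)
      simp only [Gd, Gw]
      ring
    · exact ((integrable_Gw H (s - 1)).integrableOn).const_mul _
    · exact (integrable_Gw (KER.Nice.deriv H) s).integrableOn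
  rw [e1] at h3
  linear_combination h3

theorem norm_mellin_le_of_bound (H : Nice U a b) {S : ℝ} (hS : ∀ x, ‖U x‖ ≤ S) {σ : ℝ}
    (hσ : 1 ≤ σ) (t : ℝ) : ‖mellin U ((σ : ℂ) + t * Complex.I)‖ ≤ b ^ (σ - 1) * S * (b - a) := by
  have hb : 0 < b := H.pos.trans_le H.le
  have hS0 : 0 ≤ S := (norm_nonneg _).trans (hS 0)
  rw [mellin_eq_Gw]
  have h1 : ∫ y : ℝ in Ioi 0, Gw U ((σ : ℂ) + t * Complex.I - 1) y =
      ∫ y : ℝ in Icc a b, Gw U ((σ : ℂ) + t * Complex.I - 1) y := by
    refine setIntegral_eq_of_subset_of_forall_sdiff_eq_zero measurableSet_Ioi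
      (fun x hx => H.pos.trans_le hx.1) fun x hx => ?_
    rw [Gw, H.supp x hx.2, mul_zero]
  rw [h1]
  have h2 : ∀ y ∈ Icc a b, ‖Gw U ((σ : ℂ) + t * Complex.I - 1) y‖ ≤ b ^ (σ - 1) * S := by
    intro y hy
    have hy0 : 0 < y := H.pos.trans_le hy.1
    rw [Gw, norm_mul, Complex.norm_cpow_eq_rpow_re_of_pos hy0]
    have h3 : ((σ : ℂ) + t * Complex.I - 1).re = σ - 1 := by simp
    rw [h3]
    have h4 : y ^ (σ - 1) ≤ b ^ (σ - 1) := Real.rpow_le_rpow hy0.le hy.2 (by linarith)
    exact mul_le_mul h4 (hS y) (norm_nonneg _) (by positivity)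
  have h3 := norm_setIntegral_le_of_norm_le_const (μ := volume) (s := Icc a b)
    (by simp) h2
  refine h3.trans (le_of_eq ?_)
  simp [Measure.real, ENNReal.toReal_ofReal (sub_nonneg.2 H.le)]

theorem one_add_abs_le (σ t : ℝ) (hσ : 1 ≤ σ) :
    (1 + |t|) / 2 ≤ ‖(σ : ℂ) + t * Complex.I‖ := by
  have h1 : |σ| ≤ ‖(σ : ℂ) + t * Complex.I‖ := by
    have := Complex.abs_re_le_norm ((σ : ℂ) + t * Complex.I)
    simpa using this
  have h2 : |t| ≤ ‖(σ : ℂ) + t * Complex.I‖ := by
    have := Complex.abs_im_le_norm ((σ : ℂ) + t * Complex.I)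
    simpa using this
  rw [abs_of_nonneg (by linarith)] at h1
  linarith

theorem nice_iteratedDeriv (H : Nice U a b) (k : ℕ) : Nice (iteratedDeriv k U) a b := by
  induction k with
  | zero => rwa [iteratedDeriv_zero]
  | succ n ih =>
    rw [iteratedDeriv_succ]
    exact KER.Nice.deriv ih

theorem mellin_decay_pow (H : Nice U a b) (k : ℕ) (t : ℝ) :
    ‖mellin U ((1 : ℝ) + t * Complex.I)‖ * ((1 + |t|) / 2) ^ k ≤
      ‖mellin (iteratedDeriv k U) (((1 + k : ℝ) : ℂ) + t * Complex.I)‖ := by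
  induction k with
  | zero => simp
  | succ n ih =>
    have h1 := mul_mellin_eq (nice_iteratedDeriv H n) (((1 + n : ℝ) : ℂ) + t * Complex.I)
    have h2 : ((1 + n : ℝ) : ℂ) + t * Complex.I + 1 =
        ((1 + (n + 1 : ℕ) : ℝ) : ℂ) + t * Complex.I := by push_cast; ring
    rw [h2, ← iteratedDeriv_succ] at h1
    have h3 : ‖mellin (iteratedDeriv (n + 1) U) (((1 + (n + 1 : ℕ) : ℝ) : ℂ) + t * Complex.I)‖ =
        ‖((1 + n : ℝ) : ℂ) + t * Complex.I‖ *
          ‖mellin (iteratedDeriv n U) (((1 + n : ℝ) : ℂ) + t * Complex.I)‖ := by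
      rw [← norm_mul, h1, norm_neg]
    rw [h3, pow_succ]
    have h4 := one_add_abs_le (1 + n : ℝ) t (by have : (0 : ℝ) ≤ n := by positivity
                                                linarith)
    calc ‖mellin U ((1 : ℝ) + t * Complex.I)‖ * (((1 + |t|) / 2) ^ n * ((1 + |t|) / 2))
        = (‖mellin U ((1 : ℝ) + t * Complex.I)‖ * ((1 + |t|) / 2) ^ n) * ((1 + |t|) / 2) := by ring
      _ ≤ ‖mellin (iteratedDeriv n U) (((1 + n : ℝ) : ℂ) + t * Complex.I)‖ *
          ‖((1 + n : ℝ) : ℂ) + t * Complex.I‖ := by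
          apply mul_le_mul ih h4 (by positivity) (norm_nonneg _)
      _ = _ := mul_comm _ _

/-- the Schwartz function attached to a `Nice` function -/
noncomputable def toS (H : Nice U a b) : 𝓢(ℝ, ℂ) := H.hcs.toSchwartzMap H.smooth

theorem coe_toS (H : Nice U a b) : (toS H : ℝ → ℂ) = U := rfl

theorem continuous_mellin (H : Nice U a b) :
    Continuous fun t : ℝ => mellin U ((1 : ℝ) + t * Complex.I) := by
  have := V1.continuous_mellin_line (toS H) one_pos
  rwa [coe_toS] at this

theorem mellin_inversion_one (H : Nice U a b) {x : ℝ} (hx : 0 < x) :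
    U x = ((1 / (2 * Real.pi) : ℝ) : ℂ) *
      ∫ t : ℝ, (x : ℂ) ^ (-((1 : ℂ) + t * Complex.I)) * mellin U ((1 : ℝ) + t * Complex.I) := by
  have h1 : MellinConvergent U ((1 : ℝ) : ℂ) := by
    have := V1.schwartz_mellinConvergent (toS H) (s := ((1 : ℝ) : ℂ)) (by simp)
    rwa [coe_toS] at this
  have h2 : Complex.VerticalIntegrable (mellin U) 1 := by
    have := V1.mellin_verticalIntegrable (toS H) one_pos
    rwa [coe_toS] at this
  have h3 := mellinInv_mellin_eq 1 U hx h1 h2 H.cont.continuousAt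
  rw [mellinInv] at h3
  rw [← h3, Complex.real_smul]
  simp only [smul_eq_mul, Complex.ofReal_one]

end

/-! ### products -/

theorem nice_mul {U g : ℝ → ℂ} {a b : ℝ} (H : Nice U a b)
    (hg : ∀ x, 0 < x → ContDiffAt ℝ ∞ g x) : Nice (fun x => g x * U x) a b where
  smooth := by
    rw [contDiff_iff_contDiffAt]
    intro x
    by_cases hx : x < a
    · have : (fun x => g x * U x) =ᶠ[𝓝 x] fun _ => 0 := by
        filter_upwards [Iio_mem_nhds hx] with y hy
        rw [H.eq_zero_of_le hy, mul_zero]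
      exact contDiffAt_const.congr_of_eventuallyEq this
    · exact (hg x (H.pos.trans_le (not_lt.1 hx))).mul H.smooth.contDiffAt
  pos := H.pos
  le := H.le
  supp := fun x hx => by rw [H.supp x hx, mul_zero]

/-- a fixed smooth cut-off: `1` on `[1/2, 7]`, supported in `[1/4, 8]` -/
noncomputable def U0 (x : ℝ) : ℝ :=
  Real.smoothTransition (4 * x - 1) * Real.smoothTransition (8 - x)

theorem U0_one {x : ℝ} (h1 : 1 / 2 ≤ x) (h2 : x ≤ 7) : U0 x = 1 := by
  rw [U0, Real.smoothTransition.one_of_one_le (by linarith),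
    Real.smoothTransition.one_of_one_le (by linarith), mul_one]

theorem nice_U0 : Nice (fun x => (U0 x : ℂ)) (1 / 4) 8 where
  smooth := by
    have h : ContDiff ℝ ∞ U0 := (Real.smoothTransition.contDiff.comp
      ((contDiff_const.mul contDiff_id).sub contDiff_const)).mul
      (Real.smoothTransition.contDiff.comp (contDiff_const.sub contDiff_id))
    exact Complex.ofRealCLM.contDiff.comp h
  pos := by norm_num
  le := by norm_num
  supp := by
    intro x hx
    rw [mem_Icc, not_and_or, not_le, not_le] at hx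
    rcases hx with hx | hx
    · rw [U0, Real.smoothTransition.zero_of_nonpos (by linarith), zero_mul]; simp
    · rw [U0, Real.smoothTransition.zero_of_nonpos (x := 8 - x) (by linarith), mul_zero]; simp

/-- `x^(-7/6) U0(x)` -/
noncomputable def U1 (x : ℝ) : ℂ := ((x ^ (-(7 / 6) : ℝ) : ℝ) : ℂ) * (U0 x : ℂ)

theorem nice_U1 : Nice U1 (1 / 4) 8 := by
  refine nice_mul nice_U0 fun x hx => ?_
  exact Complex.ofRealCLM.contDiff.contDiffAt.comp x
    (Real.contDiffAt_rpow_const_of_ne hx.ne')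

end Vale.Agent.P006.TI
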