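import Vale.Agent.P006.TI.Count
import Vale.Agent.P006.KER.Inv

/-!
P006, block TI-2: the model side.  Smooth sums of `N(c)^s` over squarefree primary `c` divisible
by `r`.
-/

namespace Vale.Agent.P006.TI

open Vale.Agent.P006 MeasureTheory Set Filter
open Vale.Agent.P006.KER (Nice)
open scoped ContDiff Topology

/-! ### the weight `y ^ s * U y` and its derivative -/

/-- `y ^ s * U y` -/
noncomputable def Gw (U : ℝ → ℂ) (s : ℂ) (y : ℝ) : ℂ := (y : ℂ) ^ s * U y

/-- its derivative -/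
noncomputable def Gd (U : ℝ → ℂ) (s : ℂ) (y : ℝ) : ℂ :=
  s * (y : ℂ) ^ (s - 1) * U y + (y : ℂ) ^ s * deriv U y

section
variable {U : ℝ → ℂ} {a b : ℝ}

theorem Nice.deriv_zero_left (H : Nice U a b) {y : ℝ} (hy : y < a) : deriv U y = 0 := by
  have h : U =ᶠ[𝓝 y] fun _ => 0 := by
    filter_upwards [Iio_mem_nhds hy] with z hz
    exact H.eq_zero_of_le hz
  rw [h.deriv_eq]; simp

theorem Nice.deriv_zero_right (H : Nice U a b) {y : ℝ} (hy : b < y) : deriv U y = 0 := by
  have h : U =ᶠ[𝓝 y] fun _ => 0 := by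
    filter_upwards [Ioi_mem_nhds hy] with z hz
    exact H.eq_zero_of_ge hz
  rw [h.deriv_eq]; simp

theorem Gw_zero_left (H : Nice U a b) (s : ℂ) {y : ℝ} (hy : y < a) : Gw U s y = 0 := by
  rw [Gw, H.eq_zero_of_le hy, mul_zero]

theorem Gw_zero_right (H : Nice U a b) (s : ℂ) {y : ℝ} (hy : b < y) : Gw U s y = 0 := by
  rw [Gw, H.eq_zero_of_ge hy, mul_zero]

theorem Gd_zero_left (H : Nice U a b) (s : ℂ) {y : ℝ} (hy : y < a) : Gd U s y = 0 := by
  rw [Gd, H.eq_zero_of_le hy, Nice.deriv_zero_left H hy]; simp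

theorem Gd_zero_right (H : Nice U a b) (s : ℂ) {y : ℝ} (hy : b < y) : Gd U s y = 0 := by
  rw [Gd, H.eq_zero_of_ge hy, Nice.deriv_zero_right H hy]; simp

theorem Nice.contDiff_one (H : Nice U a b) : ContDiff ℝ 1 U := H.smooth.of_le (by simp)

theorem Nice.continuous_deriv (H : Nice U a b) : Continuous (deriv U) :=
  (Nice.contDiff_one H).continuous_deriv le_rfl

theorem hasDerivAt_Gw (H : Nice U a b) (s : ℂ) {y : ℝ} (hy : 0 < y) :
    HasDerivAt (Gw U s) (Gd U s y) y := by
  have h1 : HasDerivAt (fun y : ℝ => (y : ℂ) ^ s) (s * (y : ℂ) ^ (s - 1)) y := by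
    rcases eq_or_ne s 0 with rfl | hs
    · simpa using hasDerivAt_const y (1 : ℂ)
    · have h := hasDerivAt_ofReal_cpow_const' (x := y) hy.ne' (r := s - 1) (by
        intro h; apply hs; linear_combination h)
      have h2 := h.const_mul s
      refine (h2.congr_deriv ?_).congr_of_eventuallyEq ?_
      · rfl
      · filter_upwards with z
        rw [sub_add_cancel]
        field_simp
  have h2 : HasDerivAt U (deriv U y) y :=
    ((Nice.contDiff_one H).differentiable one_ne_zero y).hasDerivAt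
  exact h1.mul h2

theorem continuous_Gd (H : Nice U a b) (s : ℂ) : Continuous (Gd U s) := by
  rw [continuous_iff_continuousAt]
  intro y
  rcases lt_or_ge 0 y with hy | hy
  · have h1 : ContinuousAt (fun y : ℝ => (y : ℂ) ^ (s - 1)) y :=
      (Complex.continuousAt_ofReal_cpow_const y (s - 1) (Or.inr hy.ne'))
    have h2 : ContinuousAt (fun y : ℝ => (y : ℂ) ^ s) y :=
      (Complex.continuousAt_ofReal_cpow_const y s (Or.inr hy.ne'))
    have h3 : ContinuousAt U y := H.cont.continuousAt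
    have h4 : ContinuousAt (deriv U) y := (Nice.continuous_deriv H).continuousAt
    exact ((continuousAt_const.mul h1).mul h3).add (h2.mul h4)
  · have h : Gd U s =ᶠ[𝓝 y] fun _ => 0 := by
      filter_upwards [Iio_mem_nhds (hy.trans_lt H.pos)] with z hz
      exact Gd_zero_left H s hz
    exact continuousAt_const.congr h.symm

theorem Gd_compact (H : Nice U a b) (s : ℂ) : HasCompactSupport (Gd U s) := by
  apply HasCompactSupport.intro (isCompact_Icc (a := a) (b := b))
  intro x hx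
  by_contra hcon
  apply hx
  constructor
  · by_contra h; exact hcon (Gd_zero_left H s (not_le.1 h))
  · by_contra h; exact hcon (Gd_zero_right H s (not_le.1 h))

theorem integrable_Gd (H : Nice U a b) (s : ℂ) : Integrable (Gd U s) :=
  (continuous_Gd H s).integrable_of_hasCompactSupport (Gd_compact H s)

theorem continuous_Gw (H : Nice U a b) (s : ℂ) : Continuous (Gw U s) := by
  rw [continuous_iff_continuousAt]
  intro y
  rcases lt_or_ge 0 y with hy | hy
  · exact (hasDerivAt_Gw H s hy).continuousAt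
  · have h : Gw U s =ᶠ[𝓝 y] fun _ => 0 := by
      filter_upwards [Iio_mem_nhds (hy.trans_lt H.pos)] with z hz
      exact Gw_zero_left H s hz
    exact continuousAt_const.congr h.symm

theorem Gw_compact (H : Nice U a b) (s : ℂ) : HasCompactSupport (Gw U s) := by
  apply HasCompactSupport.intro (isCompact_Icc (a := a) (b := b))
  intro x hx
  by_contra hcon
  apply hx
  constructor
  · by_contra h; exact hcon (Gw_zero_left H s (not_le.1 h))
  · by_contra h; exact hcon (Gw_zero_right H s (not_le.1 h))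

theorem integrable_Gw (H : Nice U a b) (s : ℂ) : Integrable (Gw U s) :=
  (continuous_Gw H s).integrable_of_hasCompactSupport (Gw_compact H s)

theorem Gw_eq_integral (H : Nice U a b) (s : ℂ) {y : ℝ} (hy : 0 < y) :
    Gw U s y = - ∫ u in Ioi 0, (Ici y).indicator (Gd U s) u := by
  have h1 : ∫ u in Ioi y, Gd U s u = 0 - Gw U s y := by
    refine integral_Ioi_of_hasDerivAt_of_tendsto' (fun x hx => ?_)
      (integrable_Gd H s).integrableOn ?_
    · exact hasDerivAt_Gw H s (hy.trans_le hx)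
    · refine tendsto_const_nhds.congr' ?_
      filter_upwards [Ioi_mem_atTop b] with z hz
      exact (Gw_zero_right H s hz).symm
  rw [setIntegral_indicator measurableSet_Ici]
  have h2 : Ioi 0 ∩ Ici y = Ici y := by
    rw [inter_eq_right]; intro z hz; exact hy.trans_le hz
  rw [h2, integral_Ici_eq_integral_Ioi, h1]; ring

/-- integration by parts: `∫ y G'(y) dy = - ∫ G` -/
theorem integral_mul_Gd (H : Nice U a b) (s : ℂ) :
    ∫ y : ℝ in Ioi 0, (y : ℂ) * Gd U s y = - mellin U (s + 1) := by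
  have h1 : ∀ y : ℝ, 0 < y → HasDerivAt (fun y : ℝ => (y : ℂ) * Gw U s y)
      (Gw U s y + (y : ℂ) * Gd U s y) y := by
    intro y hy
    have h2 : HasDerivAt (fun y : ℝ => (y : ℂ)) 1 y := Complex.ofRealCLM.hasDerivAt
    have := h2.mul (hasDerivAt_Gw H s hy)
    rwa [one_mul] at this
  have hi1 : Integrable (fun y : ℝ => (y : ℂ) * Gd U s y) := by
    apply Continuous.integrable_of_hasCompactSupport
    · exact Complex.continuous_ofReal.mul (continuous_Gd H s)
    · exact (Gd_compact H s).mul_left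
  have hi2 := integrable_Gw H s
  have h3 : ∫ y : ℝ in Ioi 0, (Gw U s y + (y : ℂ) * Gd U s y) = 0 - ((0 : ℝ) : ℂ) * Gw U s 0 := by
    refine integral_Ioi_of_hasDerivAt_of_tendsto (f := fun y : ℝ => (y : ℂ) * Gw U s y) ?_
      (fun x hx => h1 x hx) (hi2.add hi1).integrableOn ?_
    · exact (Complex.continuous_ofReal.mul (continuous_Gw H s)).continuousWithinAt
    · refine tendsto_const_nhds.congr' ?_
      filter_upwards [Ioi_mem_atTop b] with z hz
      show 0 = (z : ℂ) * Gw U s z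
      rw [Gw_zero_right H s hz, mul_zero]
  rw [integral_add hi2.integrableOn hi1.integrableOn] at h3
  have h5 : mellin U (s + 1) = ∫ y : ℝ in Ioi 0, Gw U s y := by
    unfold mellin Gw
    simp only [add_sub_cancel_right, smul_eq_mul]
  rw [h5]
  simp only [Complex.ofReal_zero, zero_mul] at h3
  linear_combination h3

end

theorem integrable_rpow_mul {V : ℝ → ℝ} {a b : ℝ} (ha : 0 < a) (hV : Continuous V)
    (h0 : ∀ x, x ∉ Icc a b → V x = 0) (p : ℝ) : Integrable (fun u => u ^ p * V u) := by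
  apply Continuous.integrable_of_hasCompactSupport
  · rw [continuous_iff_continuousAt]
    intro y
    rcases lt_or_ge 0 y with hy | hy
    · exact (Real.continuousAt_rpow_const y p (Or.inl hy.ne')).mul hV.continuousAt
    · have h : (fun u => u ^ p * V u) =ᶠ[𝓝 y] fun _ => 0 := by
        filter_upwards [Iio_mem_nhds (hy.trans_lt ha)] with z hz
        rw [h0 z (fun h => absurd hz (not_lt.2 h.1)), mul_zero]
      exact continuousAt_const.congr h.symm
  · apply HasCompactSupport.intro (isCompact_Icc (a := a) (b := b))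
    intro x hx
    rw [h0 x hx, mul_zero]

/-- the constant in the error term of the model sums -/
noncomputable def CU (U : ℝ → ℂ) (σ θ : ℝ) : ℝ :=
  ∫ u in Ioi 0, ((1 + |σ|) * (u ^ (θ + σ - 1) * ‖U u‖) + u ^ (θ + σ) * ‖deriv U u‖)

theorem CU_nonneg (U : ℝ → ℂ) (σ θ : ℝ) : 0 ≤ CU U σ θ := by
  refine setIntegral_nonneg measurableSet_Ioi fun u hu => ?_
  have : (0 : ℝ) < u := hu
  positivity

theorem rpow_mul_norm_Gd_le {U : ℝ → ℂ} (σ θ t : ℝ) {u : ℝ} (hu : 0 < u) :
    u ^ θ * ‖Gd U (σ + t * Complex.I) u‖ ≤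
      (1 + |t|) * ((1 + |σ|) * (u ^ (θ + σ - 1) * ‖U u‖) + u ^ (θ + σ) * ‖deriv U u‖) := by
  have h1 : ‖(u : ℂ) ^ ((σ : ℂ) + t * Complex.I - 1)‖ = u ^ (σ - 1) := by
    rw [Complex.norm_cpow_eq_rpow_re_of_pos hu]; simp
  have h2 : ‖(u : ℂ) ^ ((σ : ℂ) + t * Complex.I)‖ = u ^ σ := by
    rw [Complex.norm_cpow_eq_rpow_re_of_pos hu]; simp
  have h3 : ‖(σ : ℂ) + t * Complex.I‖ ≤ |σ| + |t| := by
    refine (norm_add_le _ _).trans ?_
    simp
  have h4 : ‖Gd U (σ + t * Complex.I) u‖ ≤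
      (|σ| + |t|) * u ^ (σ - 1) * ‖U u‖ + u ^ σ * ‖deriv U u‖ := by
    unfold Gd
    refine (norm_add_le _ _).trans ?_
    rw [norm_mul, norm_mul, norm_mul, h1, h2]
    gcongr
  have h5 : u ^ (θ + σ - 1) = u ^ θ * u ^ (σ - 1) := by
    rw [← Real.rpow_add hu]; congr 1; ring
  have h6 : u ^ (θ + σ) = u ^ θ * u ^ σ := Real.rpow_add hu _ _
  rw [h5, h6]
  have h7 : |σ| + |t| ≤ (1 + |t|) * (1 + |σ|) := by
    nlinarith [abs_nonneg σ, abs_nonneg t, mul_nonneg (abs_nonneg σ) (abs_nonneg t)]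
  have h8 : (1 : ℝ) ≤ 1 + |t| := by linarith [abs_nonneg t]
  calc u ^ θ * ‖Gd U (σ + t * Complex.I) u‖
      ≤ u ^ θ * ((|σ| + |t|) * u ^ (σ - 1) * ‖U u‖ + u ^ σ * ‖deriv U u‖) := by gcongr
    _ = (|σ| + |t|) * (u ^ θ * u ^ (σ - 1) * ‖U u‖) + 1 * (u ^ θ * u ^ σ * ‖deriv U u‖) := by ring
    _ ≤ (1 + |t|) * (1 + |σ|) * (u ^ θ * u ^ (σ - 1) * ‖U u‖) +
        (1 + |t|) * (u ^ θ * u ^ σ * ‖deriv U u‖) := by gcongr
    _ = _ := by ring

theorem integrable_CU {U : ℝ → ℂ} {a b : ℝ} (H : Nice U a b) (σ θ : ℝ) :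
    Integrable (fun u => ((1 + |σ|) * (u ^ (θ + σ - 1) * ‖U u‖) + u ^ (θ + σ) * ‖deriv U u‖)) := by
  refine Integrable.add (Integrable.const_mul ?_ _) ?_
  · refine integrable_rpow_mul H.pos H.cont.norm (b := b) (fun x hx => ?_) _
    rw [H.supp x hx, norm_zero]
  · refine integrable_rpow_mul H.pos (Nice.continuous_deriv H).norm (b := b) (fun x hx => ?_) _
    rw [norm_eq_zero]
    rw [mem_Icc, not_and_or, not_le, not_le] at hx
    rcases hx with hx | hx
    · exact Nice.deriv_zero_left H hx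
    · exact Nice.deriv_zero_right H hx

open Classical in
/-- squarefree primary multiples of `r` of norm at most `Z` -/
noncomputable def SM (r : O) (Z : ℝ) : Finset O := (SQ Z).filter (fun c => r ∣ c)

theorem mem_SM {r : O} {Z : ℝ} {c : O} :
    c ∈ SM r Z ↔ Primary c ∧ Squarefree c ∧ r ∣ c ∧ (N c : ℝ) ≤ Z := by
  simp only [SM, Finset.mem_filter, mem_SQ]; tauto

theorem isCoprime_of_squarefree_mul {r c : O} (h : Squarefree (r * c)) : IsCoprime r c := by
  have h1 := (squarefree_mul_iff.1 h).1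
  have hg : IsUnit (EuclideanDomain.gcd r c) :=
    h1 (EuclideanDomain.gcd_dvd_left r c) (EuclideanDomain.gcd_dvd_right r c)
  exact EuclideanDomain.gcd_isUnit_iff.1 hg

theorem squarefree_mul_of_coprime {r c : O} (h : IsCoprime r c) (hr : Squarefree r)
    (hc : Squarefree c) : Squarefree (r * c) :=
  squarefree_mul_iff.2 ⟨h.isRelPrime, hr, hc⟩

theorem card_SM {r : O} (hr : Primary r) (hs : Squarefree r) (Z : ℝ) :
    (SM r Z).card = (SC r (Z / N r)).card := by
  symm
  have hN : (0 : ℝ) < N r := by exact_mod_cast N_pos hr.ne_zero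
  refine Finset.card_bij (fun c _ => r * c) ?_ ?_ ?_
  · intro c hc
    rw [mem_SC] at hc
    obtain ⟨h1, h2, h3, h4⟩ := hc
    rw [mem_SM]
    refine ⟨hr.mul h1, squarefree_mul_of_coprime h3.symm hs h2, dvd_mul_right r c, ?_⟩
    rw [N_mul]; push_cast
    rw [le_div_iff₀ hN] at h4; linarith
  · intro x _ y _ h
    exact mul_left_cancel₀ hr.ne_zero h
  · intro c hc
    rw [mem_SM] at hc
    obtain ⟨h1, h2, ⟨c', rfl⟩, h4⟩ := hc
    refine ⟨c', ?_, rfl⟩
    rw [mem_SC]
    refine ⟨hr.of_mul h1, h2.of_mul_right, (isCoprime_of_squarefree_mul h2).symm, ?_⟩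
    rw [le_div_iff₀ hN]
    rw [N_mul] at h4; push_cast at h4; linarith

theorem cast_cpow_eq {n X : ℝ} (hn : 0 < n) (hX : 0 < X) (s : ℂ) :
    (n : ℂ) ^ s = (X : ℂ) ^ s * ((n / X : ℝ) : ℂ) ^ s := by
  rw [← Complex.mul_cpow_ofReal_nonneg hX.le (by positivity)]
  congr 1
  push_cast
  have : (X : ℂ) ≠ 0 := by exact_mod_cast hX.ne'
  field_simp

/-- **TI-2**, exact form of the model sums with the error term written as an integral -/
theorem model_sum {U : ℝ → ℂ} {a b θ : ℝ} (H : Nice U a b) (h1 : 1 / 2 < θ) (h2 : θ ≤ 1)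
    (σ t : ℝ) {X Z : ℝ} (hX : 0 < X) (hZ : b * X ≤ Z) {r : O} (hr : Primary r)
    (hs : Squarefree r) :
    ‖∑ c ∈ SM r Z, (N c : ℂ) ^ ((σ : ℂ) + t * Complex.I) * U (N c / X) -
      (kap * vr r : ℝ) * (X : ℂ) ^ ((σ : ℂ) + t * Complex.I + 1) *
        mellin U ((σ : ℂ) + t * Complex.I + 1)‖ ≤
      M1 θ * (HB.D r).card * CU U σ θ * (1 + |t|) * (X ^ σ * (X / N r) ^ θ) := by
  classical
  set s : ℂ := (σ : ℂ) + t * Complex.I with hsdef
  have hNr : (0 : ℝ) < N r := by exact_mod_cast N_pos hr.ne_zero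
  have hXs : (X : ℂ) ≠ 0 := by exact_mod_cast hX.ne'
  -- each term
  have e1 : ∀ c ∈ SM r Z, (N c : ℂ) ^ s * U (N c / X) =
      (X : ℂ) ^ s * (- ∫ u in Ioi 0, (Ici ((N c : ℝ) / X)).indicator (Gd U s) u) := by
    intro c hc
    rw [mem_SM] at hc
    have hN : (0 : ℝ) < N c := by exact_mod_cast N_pos hc.1.ne_zero
    rw [← Gw_eq_integral H s (by positivity), Gw, ← mul_assoc, ← cast_cpow_eq hN hX]
    norm_cast
  have hint : ∀ c ∈ SM r Z, IntegrableOn
      (fun u => (Ici ((N c : ℝ) / X)).indicator (Gd U s) u) (Ioi 0) := by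
    intro c _
    exact ((integrable_Gd H s).indicator measurableSet_Ici).integrableOn
  have hmI : IntegrableOn (fun u : ℝ => ((kap * vr r * X : ℝ) : ℂ) * ((u : ℂ) * Gd U s u))
      (Ioi 0) := by
    apply Integrable.integrableOn
    apply Integrable.const_mul
    apply Continuous.integrable_of_hasCompactSupport
    · exact Complex.continuous_ofReal.mul (continuous_Gd H s)
    · exact (Gd_compact H s).mul_left
  have e2 : ∑ c ∈ SM r Z, (N c : ℂ) ^ s * U (N c / X) -
      (kap * vr r : ℝ) * (X : ℂ) ^ (s + 1) * mellin U (s + 1) =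
      - ((X : ℂ) ^ s * ∫ u in Ioi 0,
        (∑ c ∈ SM r Z, (Ici ((N c : ℝ) / X)).indicator (Gd U s) u -
          ((kap * vr r * X : ℝ) : ℂ) * ((u : ℂ) * Gd U s u))) := by
    rw [Finset.sum_congr rfl e1, ← Finset.mul_sum, Finset.sum_neg_distrib,
      ← integral_finsetSum _ hint, integral_sub (integrable_finsetSum _ hint) hmI,
      integral_const_mul, integral_mul_Gd H s, Complex.cpow_add s 1 hXs, Complex.cpow_one]
    push_cast
    ring
  rw [e2, norm_neg, norm_mul]
  have e3 : ‖(X : ℂ) ^ s‖ = X ^ σ := by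
    rw [Complex.norm_cpow_eq_rpow_re_of_pos hX]; simp [hsdef]
  rw [e3]
  have hpt : ∀ u ∈ Ioi (0 : ℝ), ‖∑ c ∈ SM r Z, (Ici ((N c : ℝ) / X)).indicator (Gd U s) u -
      ((kap * vr r * X : ℝ) : ℂ) * ((u : ℂ) * Gd U s u)‖ ≤
      M1 θ * (HB.D r).card * (X / N r) ^ θ * ((1 + |t|) *
        ((1 + |σ|) * (u ^ (θ + σ - 1) * ‖U u‖) + u ^ (θ + σ) * ‖deriv U u‖)) := by
    intro u hu
    have hu0 : (0 : ℝ) < u := hu
    have hM := M1_nonneg θ
    rcases lt_or_ge b u with hub | hub
    · have h3 : Gd U s u = 0 := Gd_zero_right H s hub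
      have h4 : ∑ c ∈ SM r Z, (Ici ((N c : ℝ) / X)).indicator (Gd U s) u = 0 := by
        refine Finset.sum_eq_zero fun c _ => ?_
        rw [indicator_apply]; split_ifs <;> simp [h3]
      rw [h4, h3, mul_zero, mul_zero, sub_zero, norm_zero]
      positivity
    · have h4 : ∑ c ∈ SM r Z, (Ici ((N c : ℝ) / X)).indicator (Gd U s) u =
          ((SC r (u * X / N r)).card : ℂ) * Gd U s u := by
        rw [← card_SM hr hs]
        have h5 : SM r (u * X) = (SM r Z).filter (fun c => (N c : ℝ) / X ≤ u) := by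
          ext c
          rw [Finset.mem_filter, mem_SM, mem_SM, div_le_iff₀ hX]
          constructor
          · rintro ⟨h5, h6, h7, h8⟩
            refine ⟨⟨h5, h6, h7, h8.trans (le_trans ?_ hZ)⟩, h8⟩
            gcongr
          · rintro ⟨⟨h5, h6, h7, _⟩, h8⟩
            exact ⟨h5, h6, h7, h8⟩
        rw [h5, Finset.card_filter]
        push_cast
        rw [Finset.sum_mul]
        refine Finset.sum_congr rfl fun c _ => ?_
        rw [indicator_apply]
        simp only [mem_Ici]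
        split_ifs <;> simp
      have h6 : ((SC r (u * X / N r)).card : ℂ) * Gd U s u -
          ((kap * vr r * X : ℝ) : ℂ) * ((u : ℂ) * Gd U s u) =
          ((Eb r (u * X / N r) : ℝ) : ℂ) * Gd U s u := by
        have h7 : kap * ((N r : ℝ) * vr r) * (u * X / N r) = kap * vr r * X * u := by
          field_simp
        rw [Eb, h7]
        push_cast
        ring
      rw [h4, h6, norm_mul, Complex.norm_real, Real.norm_eq_abs]
      have h8 := abs_Eb_le h1 h2 hr hs (u * X / N r) (by positivity)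
      have h9 : (u * X / N r) ^ θ = (X / N r) ^ θ * u ^ θ := by
        rw [← Real.mul_rpow (by positivity) hu0.le]; congr 1; ring
      rw [h9] at h8
      calc |Eb r (u * X / N r)| * ‖Gd U s u‖
          ≤ (M1 θ * (HB.D r).card * ((X / N r) ^ θ * u ^ θ)) * ‖Gd U s u‖ := by gcongr
        _ = M1 θ * (HB.D r).card * (X / N r) ^ θ * (u ^ θ * ‖Gd U s u‖) := by ring
        _ ≤ _ := mul_le_mul_of_nonneg_left (rpow_mul_norm_Gd_le σ θ t hu0) (by positivity)
  have hgi : IntegrableOn (fun u => M1 θ * (HB.D r).card * (X / N r) ^ θ * ((1 + |t|) *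
        ((1 + |σ|) * (u ^ (θ + σ - 1) * ‖U u‖) + u ^ (θ + σ) * ‖deriv U u‖))) (Ioi 0) :=
    (((integrable_CU H σ θ).const_mul _).const_mul _).integrableOn
  have h10 := norm_integral_le_of_norm_le hgi
    ((ae_restrict_iff' measurableSet_Ioi).2 (ae_of_all _ hpt))
  rw [integral_const_mul, integral_const_mul] at h10
  have hXσ : 0 ≤ X ^ σ := by positivity
  calc X ^ σ * _ ≤ X ^ σ * (M1 θ * (HB.D r).card * (X / N r) ^ θ * ((1 + |t|) * CU U σ θ)) :=
        mul_le_mul_of_nonneg_left h10 hXσ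
    _ = _ := by ring

end Vale.Agent.P006.TI
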