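import Vale.Agent.P006.TI.Vx
import Vale.Agent.P006.TI.Hyp

/-!
P006, block V23, part a: separation of variables in the inner sum.
-/

namespace Vale.Agent.P006.TI

open Vale.Agent.P006 MeasureTheory Set Filter
open Vale.Agent.P006.KER (Nice)
open Vale.Agent.P006.DISP (Bump Vx)
open scoped ContDiff Topology Classical

/-- inner sum over `b`, `d ∣ b` -/
noncomputable def Sf (V0 : ℝ → ℝ) (ξ u0 B : ℝ) (a1 m d : O) : ℂ :=
  ∑ b ∈ (SPB (4 * B)).filter (fun b => d ∣ b),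
    ((Vx V0 ξ u0 (N b * (N m : ℝ) ^ 3 / B) * (N b : ℝ) ^ (-(1 / 6) : ℝ) : ℝ) : ℂ) * wf (a1 * b)

/-- the summand in terms of `c = a₁ b` -/
noncomputable def Fc (V0 : ℝ → ℝ) (ξ u0 B : ℝ) (a1 m c : O) : ℂ :=
  ((Vx V0 ξ u0 (N c * (N m : ℝ) ^ 3 / (N a1 * B)) *
    (N c * (N m : ℝ) ^ 3 / (N a1 * B)) ^ (-(1 / 6) : ℝ) *
      (B / (N m : ℝ) ^ 3) ^ (-(1 / 6) : ℝ) : ℝ) : ℂ) * wf c

section
variable {V0 : ℝ → ℝ}

theorem term_eq (ξ u0 : ℝ) {B : ℝ} (hB : 1 ≤ B) {a1 m b : O} (ha1 : InP a1) (hm : Primary m)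
    (hb : b ≠ 0) :
    ((Vx V0 ξ u0 (N b * (N m : ℝ) ^ 3 / B) * (N b : ℝ) ^ (-(1 / 6) : ℝ) : ℝ) : ℂ) * wf (a1 * b) =
      Fc V0 ξ u0 B a1 m (a1 * b) := by
  have hN1 : (0 : ℝ) < N a1 := by exact_mod_cast N_pos ha1.1.ne_zero
  have hNm : (0 : ℝ) < N m := by exact_mod_cast N_pos hm.ne_zero
  have hNb : (0 : ℝ) < N b := by exact_mod_cast N_pos hb
  have hB0 : 0 < B := by linarith
  unfold Fc
  have e1 : ((N (a1 * b) : ℕ) : ℝ) * (N m : ℝ) ^ 3 / (N a1 * B) = N b * (N m : ℝ) ^ 3 / B := by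
    rw [N_mul]; push_cast; field_simp
  rw [e1, mul_assoc, ← Real.mul_rpow (by positivity) (by positivity)]
  have e2 : (N b * (N m : ℝ) ^ 3 / B) * (B / (N m : ℝ) ^ 3) = N b := by field_simp
  rw [e2]

theorem Sf_eq_sum (h : Bump V0) {ξ u0 B R : ℝ} (h0 : 0 < ξ) (h1 : ξ ≤ 1) (h2 : 1 ≤ u0)
    (h3 : u0 ≤ 2) (hB : 1 ≤ B) {a1 m d : O} (ha1 : a1 ∈ SR R) (hm : Primary m) :
    Sf V0 ξ u0 B a1 m d =
      ∑ c ∈ SM (a1 * d) (8 * (R * B / (N m : ℝ) ^ 3)), Fc V0 ξ u0 B a1 m c := by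
  rw [mem_SR] at ha1
  obtain ⟨ha, has, haR, haR2⟩ := ha1
  have hIa : InP a1 := ⟨ha, has⟩
  have hN1 : (0 : ℝ) < N a1 := by exact_mod_cast N_pos ha.ne_zero
  have hNm : (1 : ℝ) ≤ N m := by exact_mod_cast N_pos hm.ne_zero
  have hNm3 : (1 : ℝ) ≤ (N m : ℝ) ^ 3 := one_le_pow₀ hNm
  have hB0 : 0 < B := by linarith
  have hR0 : 0 < R := by linarith
  unfold Sf
  refine Finset.sum_bij_ne_zero (fun b _ _ => a1 * b) ?_ ?_ ?_ ?_
  · intro b hb hne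
    rw [Finset.mem_filter, mem_SPB] at hb
    obtain ⟨⟨⟨hb1, hb2⟩, hb3⟩, hb4⟩ := hb
    have hwf : wf (a1 * b) ≠ 0 := right_ne_zero_of_mul hne
    have hI : InP (a1 * b) := by
      by_contra hcon; exact hwf (wf_of_not hcon)
    have hV : Vx V0 ξ u0 (N b * (N m : ℝ) ^ 3 / B) ≠ 0 := by
      intro hV
      apply left_ne_zero_of_mul hne
      rw [hV]; simp
    have h4 := (Vx_supp h h0 h1 h2 h3 hV).2
    rw [mem_SM]
    refine ⟨hI.1, hI.2, mul_dvd_mul_left a1 hb4, ?_⟩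
    rw [N_mul]; push_cast
    rw [div_le_iff₀ hB0] at h4
    have h5 : (N b : ℝ) ≤ 7 / 2 * B / (N m : ℝ) ^ 3 := by
      rw [le_div_iff₀ (by positivity)]; exact h4
    calc (N a1 : ℝ) * N b ≤ 2 * R * (7 / 2 * B / (N m : ℝ) ^ 3) := by gcongr
      _ = 7 * (R * B / (N m : ℝ) ^ 3) := by ring
      _ ≤ 8 * (R * B / (N m : ℝ) ^ 3) := by
          have : 0 ≤ R * B / (N m : ℝ) ^ 3 := by positivity
          linarith
  · intro b1 _ _ b2 _ _ he
    exact mul_left_cancel₀ ha.ne_zero he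
  · intro c hc hne
    rw [mem_SM] at hc
    obtain ⟨hc1, hc2, ⟨e, rfl⟩, hc4⟩ := hc
    have hb1 : Primary (d * e) := ha.of_mul (by rw [← mul_assoc]; exact hc1)
    have hb0 : d * e ≠ 0 := hb1.ne_zero
    have hV : Vx V0 ξ u0 ((N (a1 * d * e) : ℕ) * (N m : ℝ) ^ 3 / (N a1 * B)) ≠ 0 := by
      intro hV
      apply left_ne_zero_of_mul hne
      rw [hV]; simp
    have h4 := (Vx_supp h h0 h1 h2 h3 hV).2
    have h5 : ((N (d * e) : ℕ) : ℝ) ≤ 4 * B := by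
      rw [mul_assoc, N_mul] at h4; push_cast at h4
      rw [div_le_iff₀ (by positivity)] at h4
      have h6 : (N (d * e) : ℝ) * (N m : ℝ) ^ 3 ≤ 7 / 2 * B := by
        have : (N a1 : ℝ) * ((N (d * e) : ℝ) * (N m : ℝ) ^ 3) ≤ N a1 * (7 / 2 * B) := by
          linarith
        exact le_of_mul_le_mul_left this hN1
      have h7 : (0 : ℝ) ≤ N (d * e) := by positivity
      nlinarith
    have heq : a1 * d * e = a1 * (d * e) := mul_assoc _ _ _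
    refine ⟨d * e, ?_, ?_, heq.symm⟩
    · rw [Finset.mem_filter, mem_SPB]
      refine ⟨⟨⟨hb1, h5⟩, ?_⟩, dvd_mul_right d e⟩
      rw [heq] at hc2
      exact hc2.of_mul_right
    · rw [term_eq ξ u0 hB hIa hm hb0, ← heq]
      exact hne
  · intro b hb _
    rw [Finset.mem_filter, mem_SPB] at hb
    exact term_eq ξ u0 hB hIa hm hb.1.1.1.ne_zero

theorem cpow_pos_eq {x : ℝ} (hx : 0 < x) (s : ℂ) :
    ((x : ℝ) : ℂ) ^ s = Complex.exp ((Real.log x : ℂ) * s) := by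
  rw [Complex.cpow_def_of_ne_zero (by exact_mod_cast hx.ne'), Complex.ofReal_log hx.le]

theorem rpow_cast_eq {x : ℝ} (hx : 0 < x) (p : ℝ) :
    ((x ^ p : ℝ) : ℂ) = Complex.exp ((Real.log x : ℂ) * p) := by
  rw [Complex.ofReal_cpow hx.le, cpow_pos_eq hx]

/-- separation of variables in one term -/
theorem sep_term (h : Bump V0) {ξ u0 : ℝ} (h0 : 0 < ξ) (h1 : ξ ≤ 1) (h2 : 1 ≤ u0)
    (h3 : u0 ≤ 2) {n X l : ℝ} (hn : 0 < n) (hX : 0 < X) (hl1 : 1 ≤ l) (hl2 : l ≤ 2) :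
    ((Vx V0 ξ u0 (n / (X * l)) * (n / (X * l)) ^ (-(1 / 6) : ℝ) : ℝ) : ℂ) =
      ((l ^ (7 / 6 : ℝ) / (2 * Real.pi) : ℝ) : ℂ) *
        ∫ t : ℝ, mellin (VC V0 ξ u0) ((1 : ℝ) + t * Complex.I) *
          (((X * l : ℝ) : ℂ) ^ ((t : ℂ) * Complex.I) *
            ((n : ℂ) ^ (((-t : ℝ) : ℂ) * Complex.I) * U1 (n / X))) := by
  have hl0 : 0 < l := by linarith
  have hv : 0 < n / (X * l) := by positivity
  have hy : 0 < n / X := by positivity
  have hinv := mellin_inversion_one (nice_VC h h0 h1 h2 h3) hv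
  -- multiply by `U0`
  have hU : ((Vx V0 ξ u0 (n / (X * l)) * (n / (X * l)) ^ (-(1 / 6) : ℝ) : ℝ) : ℂ) =
      VC V0 ξ u0 (n / (X * l)) *
        ((((n / (X * l)) ^ (-(1 / 6) : ℝ) : ℝ) : ℂ) * (U0 (n / X) : ℂ)) := by
    by_cases hV : Vx V0 ξ u0 (n / (X * l)) = 0
    · rw [VC, hV]; simp
    · obtain ⟨h4, h5⟩ := Vx_supp h h0 h1 h2 h3 hV
      have h6 : n / X = (n / (X * l)) * l := by field_simp
      have h7 : U0 (n / X) = 1 := by
        apply U0_one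
        · rw [h6]; nlinarith
        · rw [h6]; nlinarith
      rw [h7, VC]; push_cast; ring
  have hlogv : Real.log (n / (X * l)) = Real.log n - Real.log X - Real.log l := by
    rw [Real.log_div hn.ne' (by positivity), Real.log_mul hX.ne' hl0.ne']; ring
  have hlogy : Real.log (n / X) = Real.log n - Real.log X := Real.log_div hn.ne' hX.ne'
  have hlogXl : Real.log (X * l) = Real.log X + Real.log l := Real.log_mul hX.ne' hl0.ne'
  have hpt : ∀ t : ℝ, ((n / (X * l) : ℝ) : ℂ) ^ (-((1 : ℂ) + t * Complex.I)) *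
      mellin (VC V0 ξ u0) ((1 : ℝ) + t * Complex.I) *
        ((((n / (X * l)) ^ (-(1 / 6) : ℝ) : ℝ) : ℂ) * (U0 (n / X) : ℂ)) =
      ((l ^ (7 / 6 : ℝ) : ℝ) : ℂ) * (mellin (VC V0 ξ u0) ((1 : ℝ) + t * Complex.I) *
          (((X * l : ℝ) : ℂ) ^ ((t : ℂ) * Complex.I) *
            ((n : ℂ) ^ (((-t : ℝ) : ℂ) * Complex.I) * U1 (n / X)))) := by
    intro t
    unfold U1
    rw [cpow_pos_eq hv, rpow_cast_eq hv, rpow_cast_eq hl0,
      cpow_pos_eq (by positivity : 0 < X * l), cpow_pos_eq hn, rpow_cast_eq hy, hlogv, hlogy,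
      hlogXl]
    have key : Complex.exp (((Real.log n - Real.log X - Real.log l : ℝ) : ℂ) *
          (-((1 : ℂ) + t * Complex.I))) *
        Complex.exp (((Real.log n - Real.log X - Real.log l : ℝ) : ℂ) * ((-(1 / 6) : ℝ) : ℂ)) =
        Complex.exp ((Real.log l : ℂ) * ((7 / 6 : ℝ) : ℂ)) *
        (Complex.exp (((Real.log X + Real.log l : ℝ) : ℂ) * ((t : ℂ) * Complex.I)) *
        (Complex.exp ((Real.log n : ℂ) * (((-t : ℝ) : ℂ) * Complex.I)) *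
        Complex.exp (((Real.log n - Real.log X : ℝ) : ℂ) * ((-(7 / 6) : ℝ) : ℂ)))) := by
      rw [← Complex.exp_add, ← Complex.exp_add, ← Complex.exp_add, ← Complex.exp_add]
      congr 1
      push_cast
      ring
    linear_combination (mellin (VC V0 ξ u0) ((1 : ℝ) + t * Complex.I) * (U0 (n / X) : ℂ)) * key
  have e1 : ((l ^ (7 / 6 : ℝ) / (2 * Real.pi) : ℝ) : ℂ) =
      ((1 / (2 * Real.pi) : ℝ) : ℂ) * ((l ^ (7 / 6 : ℝ) : ℝ) : ℂ) := by push_cast; ring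
  rw [hU, hinv, mul_assoc, ← integral_mul_const]
  simp only [hpt]
  rw [integral_const_mul, e1, mul_assoc]

end

end Vale.Agent.P006.TI
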