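import Vale.Agent.P006.TI.V23a

/-!
P006, block V23, part b: the inner sum as an integral of smooth Type I sums and its bound.
-/

namespace Vale.Agent.P006.TI

open Vale.Agent.P006 MeasureTheory Set Filter
open Vale.Agent.P006.KER (Nice)
open Vale.Agent.P006.DISP (Bump Vx)
open scoped ContDiff Topology Classical

theorem continuous_cpow_I {x : ℝ} (hx : 0 < x) :
    Continuous fun t : ℝ => ((x : ℝ) : ℂ) ^ ((t : ℂ) * Complex.I) := by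
  simp only [cpow_pos_eq hx]
  fun_prop

theorem norm_cpow_I {x : ℝ} (hx : 0 < x) (t : ℝ) :
    ‖((x : ℝ) : ℂ) ^ ((t : ℂ) * Complex.I)‖ = 1 := by
  rw [Complex.norm_cpow_eq_rpow_re_of_pos hx]; simp

section
variable {V0 : ℝ → ℝ}

/-- the Mellin transform on the line `1` -/
noncomputable def MV (V0 : ℝ → ℝ) (ξ u0 t : ℝ) : ℂ :=
  mellin (VC V0 ξ u0) ((1 : ℝ) + t * Complex.I)

theorem integrable_MV (h : Bump V0) {ξ u0 : ℝ} (h0 : 0 < ξ) (h1 : ξ ≤ 1) (h2 : 1 ≤ u0)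
    (h3 : u0 ≤ 2) : Integrable (MV V0 ξ u0) := by
  have := V1.mellin_verticalIntegrable (toS (nice_VC h h0 h1 h2 h3)) one_pos
  rw [coe_toS] at this
  exact this

theorem continuous_MV (h : Bump V0) {ξ u0 : ℝ} (h0 : 0 < ξ) (h1 : ξ ≤ 1) (h2 : 1 ≤ u0)
    (h3 : u0 ≤ 2) : Continuous (MV V0 ξ u0) :=
  continuous_mellin (nice_VC h h0 h1 h2 h3)

theorem continuous_wsum (w : O → ℂ) (U : ℝ → ℂ) (Z X : ℝ) (r : O) :
    Continuous fun t : ℝ => wsum w U Z X t r := by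
  unfold wsum
  refine continuous_finsetSum _ fun c hc => ?_
  rw [mem_SM] at hc
  have hN : (0 : ℝ) < N c := by exact_mod_cast N_pos hc.1.ne_zero
  have h1 := continuous_cpow_I hN
  simp only [Complex.ofReal_natCast] at h1
  exact continuous_const.mul (h1.mul continuous_const)

theorem norm_wsum_le_sum (w : O → ℂ) (U : ℝ → ℂ) (Z X t : ℝ) (r : O) :
    ‖wsum w U Z X t r‖ ≤ ∑ c ∈ SM r Z, ‖w c‖ * ‖U (N c / X)‖ := by
  unfold wsum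
  refine norm_sum_le_of_le _ fun c hc => ?_
  rw [mem_SM] at hc
  rw [norm_mul, norm_mul, norm_natCast_cpow_I hc.1.ne_zero, one_mul]

theorem Sf_eq_integral (h : Bump V0) {ξ u0 B R : ℝ} (h0 : 0 < ξ) (h1 : ξ ≤ 1) (h2 : 1 ≤ u0)
    (h3 : u0 ≤ 2) (hR : 1 ≤ R) (hB : 1 ≤ B) {a1 m d : O} (ha1 : a1 ∈ SR R) (hm : Primary m) :
    Sf V0 ξ u0 B a1 m d =
      ((((B / (N m : ℝ) ^ 3) ^ (-(1 / 6) : ℝ) *
        ((N a1 / R : ℝ) ^ (7 / 6 : ℝ) / (2 * Real.pi)) : ℝ)) : ℂ) *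
      ∫ t : ℝ, MV V0 ξ u0 t * ((((N a1 : ℝ) * B / (N m : ℝ) ^ 3 : ℝ) : ℂ) ^ ((t : ℂ) * Complex.I) *
        wsum wf U1 (8 * (R * B / (N m : ℝ) ^ 3)) (R * B / (N m : ℝ) ^ 3) (-t) (a1 * d)) := by
  rw [Sf_eq_sum h h0 h1 h2 h3 hB ha1 hm]
  rw [mem_SR] at ha1
  obtain ⟨ha, has, haR, haR2⟩ := ha1
  have hN1 : (0 : ℝ) < N a1 := by exact_mod_cast N_pos ha.ne_zero
  have hNm : (1 : ℝ) ≤ N m := by exact_mod_cast N_pos hm.ne_zero
  have hNm0 : (0 : ℝ) < (N m : ℝ) ^ 3 := by positivity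
  have hB0 : 0 < B := by linarith
  have hR0 : 0 < R := by linarith
  set X : ℝ := R * B / (N m : ℝ) ^ 3 with hX
  have hX0 : 0 < X := by positivity
  set l : ℝ := (N a1 : ℝ) / R with hl
  have hl1 : 1 ≤ l := by rw [hl, le_div_iff₀ hR0]; linarith
  have hl2 : l ≤ 2 := by rw [hl, div_le_iff₀ hR0]; linarith
  have hXl : X * l = (N a1 : ℝ) * B / (N m : ℝ) ^ 3 := by rw [hX, hl]; field_simp
  have hXl0 : 0 < X * l := by positivity
  have hint : ∀ c ∈ SM (a1 * d) (8 * X), Integrable fun t : ℝ => MV V0 ξ u0 t *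
      (((X * l : ℝ) : ℂ) ^ ((t : ℂ) * Complex.I) *
        (wf c * ((N c : ℂ) ^ (((-t : ℝ) : ℂ) * Complex.I) * U1 (N c / X)))) := by
    intro c hc
    rw [mem_SM] at hc
    have hN : (0 : ℝ) < N c := by exact_mod_cast N_pos hc.1.ne_zero
    have hc1 : Continuous fun t : ℝ => (N c : ℂ) ^ (((-t : ℝ) : ℂ) * Complex.I) := by
      have h4 := (continuous_cpow_I hN).comp continuous_neg
      simpa only [Function.comp_def, Complex.ofReal_natCast] using h4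
    refine (integrable_MV h h0 h1 h2 h3).mul_bdd
      ((continuous_cpow_I hXl0).mul (continuous_const.mul (hc1.mul continuous_const))
        ).aestronglyMeasurable (c := ‖wf c‖ * ‖U1 (N c / X)‖) (ae_of_all _ fun t => ?_)
    rw [norm_mul, norm_mul, norm_mul, norm_cpow_I hXl0, norm_natCast_cpow_I hc.1.ne_zero, one_mul,
      one_mul]
  have hterm : ∀ c ∈ SM (a1 * d) (8 * X), Fc V0 ξ u0 B a1 m c =
      ((((B / (N m : ℝ) ^ 3) ^ (-(1 / 6) : ℝ) * (l ^ (7 / 6 : ℝ) / (2 * Real.pi)) : ℝ)) : ℂ) *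
      ∫ t : ℝ, MV V0 ξ u0 t * (((X * l : ℝ) : ℂ) ^ ((t : ℂ) * Complex.I) *
        (wf c * ((N c : ℂ) ^ (((-t : ℝ) : ℂ) * Complex.I) * U1 (N c / X)))) := by
    intro c hc
    rw [mem_SM] at hc
    have hN : (0 : ℝ) < N c := by exact_mod_cast N_pos hc.1.ne_zero
    have hv : (N c : ℝ) * (N m : ℝ) ^ 3 / (N a1 * B) = N c / (X * l) := by
      rw [hXl]; field_simp
    unfold Fc
    rw [hv]
    have h4 := sep_term h h0 h1 h2 h3 hN hX0 hl1 hl2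
    have h5 : ((Vx V0 ξ u0 (N c / (X * l)) * (N c / (X * l)) ^ (-(1 / 6) : ℝ) *
        (B / (N m : ℝ) ^ 3) ^ (-(1 / 6) : ℝ) : ℝ) : ℂ) =
        (((B / (N m : ℝ) ^ 3) ^ (-(1 / 6) : ℝ) : ℝ) : ℂ) *
        ((Vx V0 ξ u0 (N c / (X * l)) * (N c / (X * l)) ^ (-(1 / 6) : ℝ) : ℝ) : ℂ) := by
      push_cast; ring
    rw [h5, h4]
    have h6 : ∫ t : ℝ, MV V0 ξ u0 t * (((X * l : ℝ) : ℂ) ^ ((t : ℂ) * Complex.I) *
        (wf c * ((N c : ℂ) ^ (((-t : ℝ) : ℂ) * Complex.I) * U1 (N c / X)))) =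
        (∫ t : ℝ, mellin (VC V0 ξ u0) ((1 : ℝ) + t * Complex.I) *
          (((X * l : ℝ) : ℂ) ^ ((t : ℂ) * Complex.I) *
            (((N c : ℝ) : ℂ) ^ (((-t : ℝ) : ℂ) * Complex.I) * U1 (N c / X)))) * wf c := by
      rw [← integral_mul_const]
      congr 1
      funext t
      rw [MV, Complex.ofReal_natCast]
      ring
    rw [h6]
    push_cast
    ring
  rw [Finset.sum_congr rfl hterm, ← Finset.mul_sum, ← integral_finsetSum _ hint]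
  congr 2
  funext t
  rw [← hXl, ← Finset.mul_sum, ← Finset.mul_sum]
  rfl

theorem norm_Sf_le (h : Bump V0) {ξ u0 B R : ℝ} (h0 : 0 < ξ) (h1 : ξ ≤ 1) (h2 : 1 ≤ u0)
    (h3 : u0 ≤ 2) (hR : 1 ≤ R) (hB : 1 ≤ B) {a1 m d : O} (ha1 : a1 ∈ SR R) (hm : Primary m) :
    ‖Sf V0 ξ u0 B a1 m d‖ ≤ (B / (N m : ℝ) ^ 3) ^ (-(1 / 6) : ℝ) *
      ∫ t : ℝ, ‖MV V0 ξ u0 t‖ *
        ‖wsum wf U1 (8 * (R * B / (N m : ℝ) ^ 3)) (R * B / (N m : ℝ) ^ 3) (-t) (a1 * d)‖ := by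
  rw [Sf_eq_integral h h0 h1 h2 h3 hR hB ha1 hm]
  rw [mem_SR] at ha1
  obtain ⟨ha, has, haR, haR2⟩ := ha1
  have hN1 : (0 : ℝ) < N a1 := by exact_mod_cast N_pos ha.ne_zero
  have hNm : (1 : ℝ) ≤ N m := by exact_mod_cast N_pos hm.ne_zero
  have hNm0 : (0 : ℝ) < (N m : ℝ) ^ 3 := by positivity
  have hB0 : 0 < B := by linarith
  have hR0 : 0 < R := by linarith
  have hXl0 : 0 < (N a1 : ℝ) * B / (N m : ℝ) ^ 3 := by positivity
  have hl2 : (N a1 : ℝ) / R ≤ 2 := by rw [div_le_iff₀ hR0]; linarith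
  have hcst : (N a1 / R : ℝ) ^ (7 / 6 : ℝ) / (2 * Real.pi) ≤ 1 := by
    rw [div_le_one (by positivity)]
    calc (N a1 / R : ℝ) ^ (7 / 6 : ℝ) ≤ 2 ^ (7 / 6 : ℝ) :=
          Real.rpow_le_rpow (by positivity) hl2 (by norm_num)
      _ ≤ 2 ^ (2 : ℝ) := Real.rpow_le_rpow_of_exponent_le (by norm_num) (by norm_num)
      _ = 4 := by norm_num
      _ ≤ 2 * Real.pi := by linarith [Real.pi_gt_three]
  rw [norm_mul, Complex.norm_real, Real.norm_eq_abs, abs_of_nonneg (by positivity)]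
  have h4 : ‖∫ t : ℝ, MV V0 ξ u0 t *
      ((((N a1 : ℝ) * B / (N m : ℝ) ^ 3 : ℝ) : ℂ) ^ ((t : ℂ) * Complex.I) *
        wsum wf U1 (8 * (R * B / (N m : ℝ) ^ 3)) (R * B / (N m : ℝ) ^ 3) (-t) (a1 * d))‖ ≤
      ∫ t : ℝ, ‖MV V0 ξ u0 t‖ *
        ‖wsum wf U1 (8 * (R * B / (N m : ℝ) ^ 3)) (R * B / (N m : ℝ) ^ 3) (-t) (a1 * d)‖ := by
    refine (norm_integral_le_integral_norm _).trans (le_of_eq ?_)
    congr 1
    funext t
    rw [norm_mul, norm_mul, norm_cpow_I hXl0, one_mul]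
  have h5 : 0 ≤ ∫ t : ℝ, ‖MV V0 ξ u0 t‖ *
        ‖wsum wf U1 (8 * (R * B / (N m : ℝ) ^ 3)) (R * B / (N m : ℝ) ^ 3) (-t) (a1 * d)‖ := by
    positivity
  have h6 : (B / (N m : ℝ) ^ 3) ^ (-(1 / 6) : ℝ) * ((N a1 / R : ℝ) ^ (7 / 6 : ℝ) /
      (2 * Real.pi)) ≤ (B / (N m : ℝ) ^ 3) ^ (-(1 / 6) : ℝ) :=
    mul_le_of_le_one_right (by positivity) hcst
  exact mul_le_mul h6 h4 (norm_nonneg _) (by positivity)

end

end Vale.Agent.P006.TI
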