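import Vale.Agent.P006.TI.V23b

/-!
P006, block V23, part c: the bound of `T23` in the mean.
-/

namespace Vale.Agent.P006.TI

open Vale.Agent.P006 MeasureTheory Set Filter
open Vale.Agent.P006.KER (Nice)
open Vale.Agent.P006.DISP (Bump Vx T23)
open Vale.Agent.P006.H570 (PO)
open scoped ContDiff Topology Classical

theorem SM_eq_empty_of_not_coprime {a d : O} (h : ¬ IsCoprime a d) (Z : ℝ) :
    SM (a * d) Z = ∅ := by
  rw [Finset.eq_empty_iff_forall_notMem]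
  intro c hc
  rw [mem_SM] at hc
  exact h (isCoprime_of_squarefree_mul (hc.2.1.squarefree_of_dvd hc.2.2.1))

theorem sum_SR_mul_le {f : O → ℝ} (hf : ∀ r, 0 ≤ f r) {R : ℝ} {d : O}
    (hd : Primary d) (hds : Squarefree d) (h0 : ∀ a, ¬ IsCoprime a d → f (a * d) = 0) :
    ∑ a ∈ SR R, f (a * d) ≤ ∑ r ∈ SR (R * N d), f r := by
  have h1 : ∑ a ∈ SR R, f (a * d) = ∑ a ∈ (SR R).filter (fun a => IsCoprime a d), f (a * d) := by
    rw [Finset.sum_filter]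
    refine Finset.sum_congr rfl fun a _ => ?_
    split_ifs with h
    · rfl
    · exact h0 a h
  rw [h1, ← Finset.sum_image (f := f) (g := fun a => a * d)
    (fun x _ y _ h => mul_right_cancel₀ hd.ne_zero h)]
  refine Finset.sum_le_sum_of_subset_of_nonneg ?_ fun r _ _ => hf r
  intro r hr
  rw [Finset.mem_image] at hr
  obtain ⟨a, ha, rfl⟩ := hr
  rw [Finset.mem_filter, mem_SR] at ha
  obtain ⟨⟨h2, h3, h4, h5⟩, h6⟩ := ha
  have hN : (0 : ℝ) < N d := by exact_mod_cast N_pos hd.ne_zero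
  rw [mem_SR]
  refine ⟨h2.mul hd, squarefree_mul_of_coprime h6 h3 hds, ?_, ?_⟩
  · rw [N_mul]; push_cast; gcongr
  · rw [N_mul]; push_cast
    calc (N a : ℝ) * N d ≤ 2 * R * N d := by gcongr
      _ = _ := by ring

/-- Cauchy-Schwarz over `a` -/
theorem sum_wsum_mul_le {A B' C0 η : ℝ} {q : ℕ} (hC0 : 0 ≤ C0) (hA : A ≤ q) (hB' : B' ≤ q)
    (h : ∀ X R t : ℝ, 0 < X → 1 ≤ R →
      ∑ r ∈ SR R, ‖wsum wf U1 (8 * X) X t r‖ ^ 2 ≤
        C0 * X ^ η * (X * (1 + |t|) ^ A + X / R * (1 + |t|) ^ B'))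
    {X R : ℝ} (hX : 0 < X) (hR : 1 ≤ R) {d : O} (hd : Primary d) (hds : Squarefree d) (t : ℝ) :
    ∑ a ∈ SR R, ‖wsum wf U1 (8 * X) X t (a * d)‖ ≤
      √(16 * C0) * (R ^ (1 / 2 : ℝ) * X ^ (1 / 2 + η / 2)) * (1 + |t|) ^ q := by
  have hR0 : 0 < R := by linarith
  have hT1 : 1 ≤ 1 + |t| := by linarith [abs_nonneg t]
  have hN : (1 : ℝ) ≤ N d := by exact_mod_cast N_pos hd.ne_zero
  have hRN : 1 ≤ R * N d := by nlinarith
  have h1 := sq_sum_le_card_mul_sum_sq (s := SR R)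
    (f := fun a => ‖wsum wf U1 (8 * X) X t (a * d)‖)
  have h2 := sum_SR_mul_le (f := fun r => ‖wsum wf U1 (8 * X) X t r‖ ^ 2)
    (fun r => by positivity) (R := R) hd hds (fun a ha => by
      rw [wsum, SM_eq_empty_of_not_coprime ha]; simp)
  have h3 := h X (R * N d) t hX hRN
  have h4 := card_SR_le hR0.le
  have hTA : (1 + |t|) ^ A ≤ (1 + |t|) ^ q := by
    rw [← Real.rpow_natCast]; exact Real.rpow_le_rpow_of_exponent_le hT1 hA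
  have hTB : (1 + |t|) ^ B' ≤ (1 + |t|) ^ q := by
    rw [← Real.rpow_natCast]; exact Real.rpow_le_rpow_of_exponent_le hT1 hB'
  have h5 : ∑ r ∈ SR (R * N d), ‖wsum wf U1 (8 * X) X t r‖ ^ 2 ≤
      2 * C0 * (X ^ (1 + η)) * (1 + |t|) ^ q := by
    refine h3.trans ?_
    have h6 : X / (R * N d) ≤ X := div_le_self hX.le hRN
    calc C0 * X ^ η * (X * (1 + |t|) ^ A + X / (R * N d) * (1 + |t|) ^ B')
        ≤ C0 * X ^ η * (X * (1 + |t|) ^ q + X * (1 + |t|) ^ q) := by gcongr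
      _ = _ := by rw [Real.rpow_add hX, Real.rpow_one]; ring
  have h7 : (∑ a ∈ SR R, ‖wsum wf U1 (8 * X) X t (a * d)‖) ^ 2 ≤
      (16 * C0) * (R * X ^ (1 + η)) * ((1 + |t|) ^ q) ^ 2 := by
    refine h1.trans ?_
    have h8 : 0 ≤ ∑ r ∈ SR (R * N d), ‖wsum wf U1 (8 * X) X t r‖ ^ 2 :=
      Finset.sum_nonneg fun r _ => by positivity
    have hTq : 1 ≤ (1 + |t|) ^ q := one_le_pow₀ hT1
    calc ((SR R).card : ℝ) * ∑ a ∈ SR R, ‖wsum wf U1 (8 * X) X t (a * d)‖ ^ 2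
        ≤ (8 * R) * ∑ r ∈ SR (R * N d), ‖wsum wf U1 (8 * X) X t r‖ ^ 2 := by
          apply mul_le_mul h4 h2 (Finset.sum_nonneg fun r _ => by positivity) (by positivity)
      _ ≤ (8 * R) * (2 * C0 * (X ^ (1 + η)) * (1 + |t|) ^ q) := by gcongr
      _ = (16 * C0) * (R * X ^ (1 + η)) * ((1 + |t|) ^ q * 1) := by ring
      _ ≤ (16 * C0) * (R * X ^ (1 + η)) * ((1 + |t|) ^ q * (1 + |t|) ^ q) := by gcongr
      _ = _ := by ring
  have h9 := Real.le_sqrt_of_sq_le h7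
  refine h9.trans (le_of_eq ?_)
  rw [Real.sqrt_mul (by positivity), Real.sqrt_mul (show (0 : ℝ) ≤ 16 * C0 by positivity),
    Real.sqrt_sq (by positivity), Real.sqrt_mul hR0.le]
  rw [Real.sqrt_eq_rpow R, Real.sqrt_eq_rpow (X ^ (1 + η)), ← Real.rpow_mul hX.le]
  congr 4
  ring

section
variable {V0 : ℝ → ℝ}

/-- mean value of `Sf` over a dyadic block -/
theorem sum_Sf_le (hb : Bump V0) {A B' : ℝ} (hL : L2f wf A B') {η : ℝ} (hη : 0 < η) :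
    ∃ (C : ℝ) (k : ℕ), 0 ≤ C ∧ ∀ ξ u0 B R : ℝ, 0 < ξ → ξ ≤ 1 → 1 ≤ u0 → u0 ≤ 2 → 1 ≤ R → 1 ≤ B →
      ∀ m d : O, Primary m → Primary d → Squarefree d →
        ∑ a ∈ SR R, ‖Sf V0 ξ u0 B a m d‖ ≤
          C * ξ ^ (-(k : ℝ)) * (R ^ (2 / 3 : ℝ) * (R * B / (N m : ℝ) ^ 3) ^ (1 / 3 + η / 2)) := by
  obtain ⟨C0, hC0, h⟩ := hL U1 (1 / 4) 8 nice_U1 η hη
  set q : ℕ := ⌈max A B'⌉₊ with hq
  have hA : A ≤ q := (le_max_left A B').trans (Nat.le_ceil _)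
  have hB' : B' ≤ q := (le_max_right A B').trans (Nat.le_ceil _)
  obtain ⟨C1, hC1, hdec⟩ := vx_decay hb (q + 2)
  refine ⟨√(16 * C0) * (C1 * Real.pi), q + 2, by positivity,
    fun ξ u0 B R h0 h1 h2 h3 hR hB m d hm hd hds => ?_⟩
  have hNm : (1 : ℝ) ≤ N m := by exact_mod_cast N_pos hm.ne_zero
  have hNm0 : (0 : ℝ) < (N m : ℝ) ^ 3 := by positivity
  have hB0 : 0 < B := by linarith
  have hR0 : 0 < R := by linarith
  set X : ℝ := R * B / (N m : ℝ) ^ 3 with hX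
  have hX0 : 0 < X := by positivity
  -- integrability
  have hint : ∀ a ∈ SR R, Integrable fun t : ℝ =>
      ‖MV V0 ξ u0 t‖ * ‖wsum wf U1 (8 * X) X (-t) (a * d)‖ := by
    intro a _
    refine (integrable_MV hb h0 h1 h2 h3).norm.mul_bdd
      (((continuous_wsum wf U1 (8 * X) X (a * d)).comp continuous_neg).norm).aestronglyMeasurable
      (c := ∑ c ∈ SM (a * d) (8 * X), ‖wf c‖ * ‖U1 (N c / X)‖) (ae_of_all _ fun t => ?_)
    simp only [norm_norm]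
    exact norm_wsum_le_sum _ _ _ _ _ _
  have h4 : ∑ a ∈ SR R, ‖Sf V0 ξ u0 B a m d‖ ≤ (B / (N m : ℝ) ^ 3) ^ (-(1 / 6) : ℝ) *
      ∫ t : ℝ, ∑ a ∈ SR R, ‖MV V0 ξ u0 t‖ * ‖wsum wf U1 (8 * X) X (-t) (a * d)‖ := by
    rw [integral_finsetSum _ hint, Finset.mul_sum]
    exact Finset.sum_le_sum fun a ha => norm_Sf_le hb h0 h1 h2 h3 hR hB ha hm
  have hinv : Integrable fun t : ℝ => (1 + t ^ 2)⁻¹ := integrable_inv_one_add_sq
  have h5 : ∫ t : ℝ, ∑ a ∈ SR R, ‖MV V0 ξ u0 t‖ * ‖wsum wf U1 (8 * X) X (-t) (a * d)‖ ≤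
      ∫ t : ℝ, (√(16 * C0) * (R ^ (1 / 2 : ℝ) * X ^ (1 / 2 + η / 2)) *
        (C1 * ξ ^ (-((q + 2 : ℕ) : ℝ)))) * (1 + t ^ 2)⁻¹ := by
    refine integral_mono_of_nonneg (ae_of_all _ fun t => ?_) (hinv.const_mul _)
      (ae_of_all _ fun t => ?_)
    · exact Finset.sum_nonneg fun a _ => by positivity
    · simp only
      rw [← Finset.mul_sum]
      have h6 := sum_wsum_mul_le hC0 hA hB' h hX0 hR hd hds (-t)
      have h7 := hdec ξ u0 h0 h1 h2 h3 t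
      rw [abs_neg] at h6
      have hT : 0 < 1 + |t| := by positivity
      have h8 : (1 + |t|) ^ (-((q + 2 : ℕ) : ℝ)) * (1 + |t|) ^ q ≤ (1 + t ^ 2)⁻¹ := by
        have e1 : (1 + |t|) ^ (-((q + 2 : ℕ) : ℝ)) * (1 + |t|) ^ q = ((1 + |t|) ^ 2)⁻¹ := by
          rw [Real.rpow_neg hT.le, Real.rpow_natCast, pow_add, mul_inv]
          field_simp
        rw [e1]
        apply inv_anti₀ (by positivity)
        have := sq_abs t
        nlinarith [abs_nonneg t]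
      calc ‖MV V0 ξ u0 t‖ * ∑ a ∈ SR R, ‖wsum wf U1 (8 * X) X (-t) (a * d)‖
          ≤ (C1 * ξ ^ (-((q + 2 : ℕ) : ℝ)) * (1 + |t|) ^ (-((q + 2 : ℕ) : ℝ))) *
            (√(16 * C0) * (R ^ (1 / 2 : ℝ) * X ^ (1 / 2 + η / 2)) * (1 + |t|) ^ q) :=
            mul_le_mul h7 h6 (Finset.sum_nonneg fun _ _ => norm_nonneg _) (by positivity)
        _ = (√(16 * C0) * (R ^ (1 / 2 : ℝ) * X ^ (1 / 2 + η / 2)) *
            (C1 * ξ ^ (-((q + 2 : ℕ) : ℝ)))) *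
            ((1 + |t|) ^ (-((q + 2 : ℕ) : ℝ)) * (1 + |t|) ^ q) := by ring
        _ ≤ _ := by gcongr
  rw [integral_const_mul, integral_univ_inv_one_add_sq] at h5
  refine h4.trans ?_
  have h9 : (B / (N m : ℝ) ^ 3) = X / R := by rw [hX]; field_simp
  have h10 : (B / (N m : ℝ) ^ 3) ^ (-(1 / 6) : ℝ) * (R ^ (1 / 2 : ℝ) * X ^ (1 / 2 + η / 2)) =
      R ^ (2 / 3 : ℝ) * X ^ (1 / 3 + η / 2) := by
    rw [h9, Real.div_rpow hX0.le hR0.le, Real.rpow_neg hR0.le (1 / 6)]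
    have e1 : R ^ (2 / 3 : ℝ) = R ^ (1 / 6 : ℝ) * R ^ (1 / 2 : ℝ) := by
      rw [← Real.rpow_add hR0]; norm_num
    have e2 : X ^ (1 / 3 + η / 2) = X ^ (-(1 / 6) : ℝ) * X ^ (1 / 2 + η / 2) := by
      rw [← Real.rpow_add hX0]; congr 1; ring
    rw [e1, e2]
    field_simp
  calc (B / (N m : ℝ) ^ 3) ^ (-(1 / 6) : ℝ) *
        ∫ t : ℝ, ∑ a ∈ SR R, ‖MV V0 ξ u0 t‖ * ‖wsum wf U1 (8 * X) X (-t) (a * d)‖
      ≤ (B / (N m : ℝ) ^ 3) ^ (-(1 / 6) : ℝ) *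
        ((√(16 * C0) * (R ^ (1 / 2 : ℝ) * X ^ (1 / 2 + η / 2)) *
        (C1 * ξ ^ (-((q + 2 : ℕ) : ℝ)))) * Real.pi) := by gcongr
    _ = √(16 * C0) * (C1 * Real.pi) * ξ ^ (-((q + 2 : ℕ) : ℝ)) *
        ((B / (N m : ℝ) ^ 3) ^ (-(1 / 6) : ℝ) * (R ^ (1 / 2 : ℝ) * X ^ (1 / 2 + η / 2))) := by
          ring
    _ = _ := by rw [h10]

end

end Vale.Agent.P006.TI
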