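import Vale.Agent.P006.TI.Mel
import Vale.Agent.P006.DISP.Stmt

/-!
P006, block V23: the weight `Vx V0 ξ u0` and the decay of its Mellin transform, uniformly in
`ξ, u0`.
-/

namespace Vale.Agent.P006.TI

open Vale.Agent.P006 MeasureTheory Set Filter
open Vale.Agent.P006.KER (Nice)
open Vale.Agent.P006.DISP (Bump Vx)
open scoped ContDiff Topology

/-- the complex valued weight -/
noncomputable def VC (V0 : ℝ → ℝ) (ξ u0 : ℝ) (u : ℝ) : ℂ := (Vx V0 ξ u0 u : ℂ)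

section
variable {V0 : ℝ → ℝ}

theorem bump_smooth (h : Bump V0) : ContDiff ℝ ∞ (fun x => (V0 x : ℂ)) :=
  Complex.ofRealCLM.contDiff.comp h.smooth

theorem Vx_supp (h : Bump V0) {ξ u0 u : ℝ} (h0 : 0 < ξ) (h1 : ξ ≤ 1) (h2 : 1 ≤ u0) (h3 : u0 ≤ 2)
    (hu : Vx V0 ξ u0 u ≠ 0) : 1 / 2 ≤ u ∧ u ≤ 7 / 2 := by
  obtain ⟨h4, h5⟩ := h.supp _ hu
  rw [le_div_iff₀ h0] at h4
  rw [div_le_iff₀ h0] at h5
  constructor <;> nlinarith

theorem nice_VC (h : Bump V0) {ξ u0 : ℝ} (h0 : 0 < ξ) (h1 : ξ ≤ 1) (h2 : 1 ≤ u0) (h3 : u0 ≤ 2) :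
    Nice (VC V0 ξ u0) (1 / 2) (7 / 2) where
  smooth := (bump_smooth h).comp ((contDiff_id.sub contDiff_const).div_const ξ)
  pos := by norm_num
  le := by norm_num
  supp := by
    intro x hx
    by_contra hcon
    apply hx
    have h4 : Vx V0 ξ u0 x ≠ 0 := fun h5 => hcon (by rw [VC, h5, Complex.ofReal_zero])
    exact Vx_supp h h0 h1 h2 h3 h4

theorem bump_compact (h : Bump V0) : HasCompactSupport (fun x => (V0 x : ℂ)) := by
  apply HasCompactSupport.intro (isCompact_Icc (a := -(1 / 2 : ℝ)) (b := 3 / 2))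
  intro x hx
  by_contra hcon
  apply hx
  have h4 : V0 x ≠ 0 := fun h5 => hcon (by rw [h5, Complex.ofReal_zero])
  exact h.supp x h4

theorem iteratedDeriv_affine {f : ℝ → ℂ} (hf : ContDiff ℝ ∞ f) (c s : ℝ) (k : ℕ) :
    iteratedDeriv k (fun u => f (c * (u - s))) = fun u => c ^ k • iteratedDeriv k f (c * (u - s)) := by
  have e2 := iteratedDeriv_comp_sub_const k (fun y : ℝ => f (c * y)) s
  have e3 := iteratedDeriv_comp_const_smul (n := k) (f := f)
    (hf.of_le (by exact_mod_cast le_top)) c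
  rw [e2, e3]

theorem iteratedDeriv_VC (h : Bump V0) {ξ u0 : ℝ} (h0 : 0 < ξ) (k : ℕ) :
    iteratedDeriv k (VC V0 ξ u0) =
      fun u => (ξ⁻¹) ^ k • iteratedDeriv k (fun x => (V0 x : ℂ)) (ξ⁻¹ * (u - u0)) := by
  rw [← iteratedDeriv_affine (bump_smooth h)]
  congr 1
  funext u
  simp only [VC, Vx]
  congr 2
  field_simp

/-- uniform decay of the Mellin transform of the weight -/
theorem vx_decay (h : Bump V0) (k : ℕ) : ∃ C : ℝ, 0 ≤ C ∧
    ∀ ξ u0 : ℝ, 0 < ξ → ξ ≤ 1 → 1 ≤ u0 → u0 ≤ 2 → ∀ t : ℝ,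
      ‖mellin (VC V0 ξ u0) ((1 : ℝ) + t * Complex.I)‖ ≤
        C * ξ ^ (-(k : ℝ)) * (1 + |t|) ^ (-(k : ℝ)) := by
  have hc : HasCompactSupport (iteratedDeriv k (fun x => (V0 x : ℂ))) := by
    induction k with
    | zero => simpa using bump_compact h
    | succ n ih => rw [iteratedDeriv_succ]; exact ih.deriv
  have hcont : Continuous (iteratedDeriv k (fun x => (V0 x : ℂ))) :=
    (bump_smooth h).continuous_iteratedDeriv k (by exact_mod_cast le_top)
  obtain ⟨S, hS⟩ := hcont.bounded_above_of_compact_support hc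
  have hS0 : 0 ≤ S := (norm_nonneg _).trans (hS 0)
  refine ⟨(7 / 2 : ℝ) ^ ((1 + k : ℝ) - 1) * S * (7 / 2 - 1 / 2) * 2 ^ k, by positivity,
    fun ξ u0 h0 h1 h2 h3 t => ?_⟩
  have hN := nice_VC h h0 h1 h2 h3
  have h4 := mellin_decay_pow hN k t
  have h5 : ∀ x, ‖iteratedDeriv k (VC V0 ξ u0) x‖ ≤ ξ ^ (-(k : ℝ)) * S := by
    intro x
    rw [iteratedDeriv_VC h h0 k, norm_smul]
    have e2 : ‖(ξ⁻¹) ^ k‖ = ξ ^ (-(k : ℝ)) := by
      rw [Real.norm_eq_abs, abs_of_pos (by positivity), Real.rpow_neg h0.le, Real.rpow_natCast,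
        inv_pow]
    rw [e2]
    gcongr
    exact hS _
  have h6 := norm_mellin_le_of_bound (nice_iteratedDeriv hN k) h5 (σ := 1 + k)
    (by have : (0 : ℝ) ≤ k := by positivity
        linarith) t
  have h7 := h4.trans h6
  have hT : 0 < 1 + |t| := by positivity
  have e3 : (1 + |t|) ^ (-(k : ℝ)) = ((1 + |t|) ^ k)⁻¹ := by
    rw [Real.rpow_neg hT.le, Real.rpow_natCast]
  rw [e3, ← div_eq_mul_inv, le_div_iff₀ (by positivity)]
  rw [div_pow, mul_div_assoc', div_le_iff₀ (by positivity)] at h7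
  calc _ ≤ _ := h7
    _ = _ := by ring

end

end Vale.Agent.P006.TI
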